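import Vale.Agent.P215Z.Frm.Defs

/-!
# P215: labelled grids, curves and sheets
-/

noncomputable section

namespace Vale.Agent.P215Z

open Classical

def GAdj (r r' : Gp) : Prop :=
  r' = r + (1, 0) ∨ r' = r - (1, 0) ∨ r' = r + (0, 1) ∨ r' = r - (0, 1)

/-- the face (lower left corner) to the left of the oriented edge from `r` to `r'` -/
def lf (r r' : Gp) : Gp :=
  if r' = r + (1, 0) then r else if r' = r + (0, 1) then r - (1, 0)
  else if r' = r - (1, 0) then r - (1, 1) else r - (0, 1)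

def rt (r r' : Gp) : Gp := lf r' r

def sqs (m : ℕ) : Finset Gp := Finset.Ico (0 : ℤ) m ×ˢ Finset.Ico (0 : ℤ) m

/-- the counterclockwise boundary of a face -/
def bdF (f : Gp) : List Gp := [f, f + (1, 0), f + (1, 1), f + (0, 1), f]

/-- the counterclockwise boundary of the grid -/
def bdG (m : ℕ) (k : ℕ) : Gp :=
  if k ≤ m then (k, 0) else if k ≤ 2 * m then (m, (k : ℤ) - m)
  else if k ≤ 3 * m then (3 * (m : ℤ) - k, m) else (0, 4 * (m : ℤ) - k)

structure LabGrid (Λ : Type) where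
  m : ℕ
  hm : 0 < m
  lab : Gp → Λ
  dir : Λ → Λ → Prop
  lab0 : Λ
  asym : ∀ x y, dir x y → ¬ dir y x
  total : ∀ f f', InSq m f → InSq m f' → GAdj f f' → lab f ≠ lab f' →
    dir (lab f) (lab f') ∨ dir (lab f') (lab f)
  bd : ∀ f, InSq m f → (f.1 = 0 ∨ f.1 = m - 1 ∨ f.2 = 0 ∨ f.2 = m - 1) → lab f = lab0
  two : ∀ r : Gp, InSq m r → InSq m (r - (1, 1)) →
    (∃ x y, ∀ f, Corner f r → lab f = x ∨ lab f = y) ∧
      ¬ (lab r = lab (r - (1, 1)) ∧ lab (r - (1, 0)) = lab (r - (0, 1)) ∧ lab r ≠ lab (r - (1, 0)))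

namespace LabGrid
variable {Λ : Type} (g : LabGrid Λ)

/-- oriented interface edges -/
def IE (r r' : Gp) : Prop :=
  GAdj r r' ∧ InSq g.m (lf r r') ∧ InSq g.m (rt r r') ∧ g.dir (g.lab (lf r r')) (g.lab (rt r r'))

structure Curves where
  C : Type
  finC : Fintype C
  S : Type
  finS : Fintype S
  per : C → ℕ
  vx : C → ℕ → Gp
  sh : Gp → S
  labS : S → Λ
  root : S
  shL : C → S
  shR : C → S
  ins : C → Bool
  lev : C → ℕ
  par : S → Option C
  per_pos : ∀ c, 0 < per c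
  closed : ∀ c, vx c (per c) = vx c 0
  base_odd : ∀ c, Odd ((vx c 0).1 + (vx c 0).2)
  ie : ∀ c, ∀ k < per c, g.IE (vx c k) (vx c (k + 1))
  ie_surj : ∀ r r', g.IE r r' → ∃ c, ∃ k < per c, vx c k = r ∧ vx c (k + 1) = r'
  vx_inj : ∀ c c' k k', k < per c → k' < per c' → vx c k = vx c' k' → c = c' ∧ k = k'
  lab_sh : ∀ f, InSq g.m f → labS (sh f) = g.lab f
  sh_adj : ∀ f f', InSq g.m f → InSq g.m f' → GAdj f f' → g.lab f = g.lab f' → sh f = sh f'
  sh_conn : ∀ f f', InSq g.m f → InSq g.m f' → sh f = sh f' →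
    Relation.ReflTransGen (fun x y => InSq g.m x ∧ InSq g.m y ∧ GAdj x y ∧ g.lab x = g.lab y) f f'
  sh_left : ∀ c, ∀ k < per c, sh (lf (vx c k) (vx c (k + 1))) = shL c
  sh_right : ∀ c, ∀ k < per c, sh (rt (vx c k) (vx c (k + 1))) = shR c
  sh_bd : ∀ f, InSq g.m f → (f.1 = 0 ∨ f.1 = g.m - 1 ∨ f.2 = 0 ∨ f.2 = g.m - 1) → sh f = root
  par_iff : ∀ P c, par P = some c ↔ P = if ins c then shL c else shR c
  par_root : par root = none
  lev_lt : ∀ c c', par (if ins c then shR c else shL c) = some c' → lev c' < lev c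

attribute [instance] Curves.finC Curves.finS

namespace Curves
variable {g} (cv : g.Curves)

/-- vertices and edges of the faces of a sheet -/
def PV (P : cv.S) (r : Gp) : Prop := ∃ f, InSq g.m f ∧ cv.sh f = P ∧ Corner f r
def PE (P : cv.S) (r r' : Gp) : Prop :=
  GAdj r r' ∧ ((InSq g.m (lf r r') ∧ cv.sh (lf r r') = P) ∨ (InSq g.m (rt r r') ∧ cv.sh (rt r r') = P))
def Touch (P : cv.S) (c : cv.C) : Prop := cv.shL c = P ∨ cv.shR c = P
/-- walks from a base vertex to all vertices of a sheet -/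
structure Walks (P : cv.S) (b : Gp) (wk : Gp → List Gp) : Prop where
  base : wk b = [b]
  head : ∀ r, cv.PV P r → (wk r).head? = some b
  last : ∀ r, cv.PV P r → (wk r).getLast? = some r
  chain : ∀ r, cv.PV P r → (wk r).IsChain (cv.PE P)

end Curves
end LabGrid

end Vale.Agent.P215Z
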