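import Vale.Agent.P215Z.Grid.Cv

/-! G1: curves and sheets exist -/
noncomputable section
namespace Vale.Agent.P215Z

theorem grid_potential {G : Type} [Group G] (m n : ℕ) (U : Gp → Gp → G)
    (hU : ∀ r r', U r' r = (U r r')⁻¹)
    (h : ∀ f : Gp, 0 ≤ f.1 → f.1 < m → 0 ≤ f.2 → f.2 < n → holL U (bdF f) = 1) :
    ∃ μ : Gp → G, ∀ r r' : Gp, 0 ≤ r.1 → r.1 ≤ m → 0 ≤ r.2 → r.2 ≤ n → 0 ≤ r'.1 → r'.1 ≤ m →
      0 ≤ r'.2 → r'.2 ≤ n → GAdj r r' → U r r' = (μ r)⁻¹ * μ r' :=
  Gr.potential_aux m n U hU h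

namespace Gr

open Classical

variable {Λ : Type} (g : LabGrid Λ)

/-- the sheets -/
def Sh : Type :=
  Quotient (⟨fun x y => Cn g x.1 y.1, fun _ => .refl, Cn.symm, Cn.trans⟩ :
    Setoid {f : Gp // InSq g.m f})

instance : Finite {f : Gp // InSq g.m f} :=
  Finite.of_injective (β := faces g.m) (fun x => ⟨x.1, mem_faces.2 x.2⟩)
    fun _ _ h => Subtype.ext (congrArg (fun z => z.1) h)

instance : Finite (Sh g) := Quotient.finite _

theorem inSq_zero : InSq g.m (0, 0) := by
  have := g.hm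
  simp only [InSq]
  omega

/-- the class of a face -/
def mkS (f : Gp) (h : InSq g.m f) : Sh g := Quotient.mk _ ⟨f, h⟩

/-- the sheet of a face -/
def sh (f : Gp) : Sh g := if h : InSq g.m f then mkS g f h else mkS g (0, 0) (inSq_zero g)

variable {g}

theorem sh_mk {f : Gp} (h : InSq g.m f) : sh g f = mkS g f h := dif_pos h

theorem sh_eq {f f' : Gp} (h : InSq g.m f) (h' : InSq g.m f') : sh g f = sh g f' ↔ Cn g f f' := by
  rw [sh_mk h, sh_mk h']
  exact Quotient.eq

/-- the parent curve -/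
def par (P : Sh g) : Option (Cv g) := if h : ∃ c : Cv g, P = sh g c.inF then some h.choose else none

theorem par_iff (P : Sh g) (c : Cv g) : par P = some c ↔ P = sh g c.inF := by
  unfold par
  split_ifs with h
  · rw [Option.some.injEq]
    refine ⟨fun e => e ▸ h.choose_spec, fun e => Cv.eq_of_cn ?_⟩
    rw [← sh_eq (Cv.in_inF _) c.in_inF, ← e, ← h.choose_spec]
  · exact ⟨fun e => (by cases e), fun e => absurd ⟨c, e⟩ h⟩

theorem en_dt (c : Cv g) (k : ℕ) : (c.dt (k + 1)).st = (c.dt k).en := by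
  rw [c.dt_succ, Dt.st_nxt]

end Gr

open Gr in
theorem LabGrid.exists_curves {Λ : Type} (g : LabGrid Λ) : Nonempty g.Curves := by
  refine ⟨{
    C := Cv g
    finC := inferInstance
    S := Sh g
    finS := Fintype.ofFinite _
    per := Cv.per
    vx := fun c k => (c.dt k).st
    sh := sh g
    labS := Quotient.lift (fun x => g.lab x.1) fun _ _ h => Cn.lab h
    root := sh g (0, 0)
    shL := fun c => sh g c.base.v
    shR := fun c => sh g c.base.w
    ins := Cv.ins
    lev := Cv.lev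
    par := par
    per_pos := Cv.per_pos
    closed := fun c => congrArg Dt.st c.dt_per
    base_odd := Cv.base_odd
    ie := fun c k _ => by rw [en_dt]; exact Dt.ie _
    ie_surj := fun r r' h => ?_
    vx_inj := fun c c' k k' hk hk' h => ?_
    lab_sh := fun f hf => by rw [sh_mk hf]; rfl
    sh_adj := fun f f' h h' ha hl => (sh_eq h h').2 (Cn.one h h' ha hl)
    sh_conn := fun f f' h h' e => (sh_eq h h').1 e
    sh_left := fun c k _ => ?_
    sh_right := fun c k _ => ?_
    sh_bd := fun f hf hb => (sh_eq hf (inSq_zero g)).2 (cn_bd hf hb).symm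
    par_iff := fun P c => ?_
    par_root := ?_
    lev_lt := fun c c' h => ?_ }⟩
  · obtain ⟨x, rfl, rfl⟩ := Dt.exists_of_ie h
    obtain ⟨k, hk, e⟩ := x.cur.exists_dt rfl
    exact ⟨x.cur, k, hk, by rw [e], by rw [en_dt, e]⟩
  · have h1 := Dt.st_inj h
    have h2 : c = c' := by rw [← c.cur_dt k, h1, c'.cur_dt]
    subst h2
    exact ⟨rfl, c.dt_inj hk hk' h1⟩
  · rw [en_dt, Dt.lf_eq]
    exact (sh_eq (Dt.inv _) (Dt.inv _)).2 (c.cn_base (c.cur_dt k)).1.symm
  · rw [en_dt, Dt.rt_eq]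
    exact (sh_eq (Dt.in_w _) (Dt.in_w _)).2 (c.cn_base (c.cur_dt k)).2.symm
  · rw [par_iff, Cv.inF, apply_ite (sh g)]
  · rw [Option.eq_none_iff_forall_ne_some]
    intro c hc
    rw [par_iff, sh_eq (inSq_zero g) c.in_inF] at hc
    exact c.kap_inF.1 ((hc.kap c).symm.trans (c.kap_left rfl))
  · rw [par_iff, ← apply_ite (sh g)] at h
    refine Cv.lev_lt ((sh_eq ?_ c'.in_inF).1 h)
    unfold Cv.outF
    split_ifs
    exacts [c.base.in_w, c.base.inv]

end Vale.Agent.P215Z
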