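import Vale.Agent.P215Z.Grid.Dt

/-! P215, grid: curves, their winding numbers, and sheets -/

noncomputable section

namespace Vale.Agent.P215Z.Gr

open Finset

variable {Λ : Type} (g : LabGrid Λ)

/-- the permutation of the interface edges -/
def nxP : Equiv.Perm (Dt g) :=
  Equiv.ofBijective Dt.nxt ⟨Dt.nxt_injective, Dt.nxt_surjective⟩

/-- the curves -/
def Cv : Type := Quotient (Equiv.Perm.SameCycle.setoid (nxP g))

instance : Finite (Cv g) := Quotient.finite _
instance : Fintype (Cv g) := Fintype.ofFinite _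
instance : DecidableEq (Cv g) := Classical.decEq _
instance : Fintype (Dt g) := Fintype.ofFinite _
instance : DecidableEq (Dt g) := Classical.decEq _

variable {g}

/-- the curve of an edge -/
def Dt.cur (x : Dt g) : Cv g := Quotient.mk _ x

theorem Dt.cur_nxt (x : Dt g) : x.nxt.cur = x.cur :=
  Quotient.sound (Equiv.Perm.sameCycle_apply_left (f := nxP g).2 (Equiv.Perm.SameCycle.refl _ _))

theorem Dt.cur_iter (x : Dt g) (k : ℕ) : (Dt.nxt^[k] x).cur = x.cur := by
  induction k with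
  | zero => rfl
  | succ k ih => rw [Function.iterate_succ_apply', Dt.cur_nxt, ih]

namespace Cv

variable (c : Cv g)

theorem exists_base : ∃ x : Dt g, x.cur = c ∧ Odd (x.st.1 + x.st.2) := by
  have h : Dt.cur (Quotient.out c) = c := Quotient.out_eq c
  rcases Dt.odd_or (Quotient.out c) with h1 | h1
  · exact ⟨_, h, h1⟩
  · exact ⟨_, (Dt.cur_nxt _).trans h, h1⟩

/-- the first edge of a curve -/
def base : Dt g := c.exists_base.choose

theorem cur_base : c.base.cur = c := c.exists_base.choose_spec.1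

theorem base_odd : Odd (c.base.st.1 + c.base.st.2) := c.exists_base.choose_spec.2

/-- the length of a curve -/
def per : ℕ := Function.minimalPeriod Dt.nxt c.base

/-- the edges of a curve -/
def dt (k : ℕ) : Dt g := Dt.nxt^[k] c.base

theorem cur_dt (k : ℕ) : (c.dt k).cur = c := by rw [dt, Dt.cur_iter, cur_base]

theorem dt_succ (k : ℕ) : c.dt (k + 1) = (c.dt k).nxt := Function.iterate_succ_apply' _ _ _

theorem per_pos : 0 < c.per :=
  Function.minimalPeriod_pos_of_mem_periodicPts (Dt.nxt_injective.mem_periodicPts _)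

theorem dt_per : c.dt c.per = c.base := Function.iterate_minimalPeriod

theorem dt_inj {j k : ℕ} (hj : j < c.per) (hk : k < c.per) (h : c.dt j = c.dt k) : j = k :=
  Function.iterate_injOn_Iio_minimalPeriod hj hk h

theorem exists_dt {x : Dt g} (hx : x.cur = c) : ∃ k < c.per, c.dt k = x := by
  have h : (nxP g).SameCycle c.base x := Quotient.exact (c.cur_base.trans hx.symm)
  obtain ⟨i, -, hi⟩ := h.exists_pow_eq'
  refine ⟨i % c.per, Nat.mod_lt _ c.per_pos, ?_⟩
  rw [dt, per, Function.iterate_mod_minimalPeriod_eq]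
  rw [Equiv.Perm.coe_pow] at hi
  exact hi

theorem ind {P : Dt g → Prop} (h0 : P c.base) (h1 : ∀ x, P x → P x.nxt) {x : Dt g}
    (hx : x.cur = c) : P x := by
  obtain ⟨k, -, rfl⟩ := c.exists_dt hx
  clear hx
  induction k with
  | zero => exact h0
  | succ k ih => rw [dt_succ]; exact h1 _ ih

theorem sum_dt {V : Type} [AddCommMonoid V] (f : Dt g → V) :
    ∑ k ∈ range c.per, f (c.dt k) = ∑ x : Dt g with x.cur = c, f x :=
  sum_bij (fun k _ => c.dt k) (fun k _ => by simp [c.cur_dt])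
    (fun j hj k hk h => c.dt_inj (mem_range.1 hj) (mem_range.1 hk) h)
    (fun x hx => by
      obtain ⟨k, hk, e⟩ := c.exists_dt (mem_filter.1 hx).2
      exact ⟨k, mem_range.2 hk, e⟩)
    fun _ _ => rfl

end Cv

/-- the end points of `n` consecutive edges -/
def Dt.walk : ℕ → Dt g → List Gp
  | 0, _ => []
  | n + 1, x => x.en :: Dt.walk n x.nxt

theorem Dt.last_walk (x : Dt g) (n : ℕ) : last x.st (Dt.walk n x) = (Dt.nxt^[n] x).st := by
  induction n generalizing x with
  | zero => rfl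
  | succ n ih => rw [Dt.walk, last, ← x.st_nxt]; exact ih x.nxt

theorem Dt.psum_walk (x : Dt g) (a : Gp → Gp → ℤ) (n : ℕ) :
    psum a x.st (Dt.walk n x) = ∑ k ∈ range n, a (Dt.nxt^[k] x).st (Dt.nxt^[k] x).en := by
  induction n generalizing x with
  | zero => rfl
  | succ n ih =>
    rw [Dt.walk, psum, sum_range_succ', add_comm]
    congr 1
    rw [← x.st_nxt]
    exact ih x.nxt

theorem Dt.isPath_walk (x : Dt g) (n : ℕ) : IsPath (Bx g.m) x.st (Dt.walk n x) := by
  induction n generalizing x with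
  | zero => exact x.ahead.2.2.2.2.2.2.2.2.1
  | succ n ih =>
    refine ⟨x.ahead.2.2.2.2.2.2.2.2.1, nb_of_gadj x.st_adj, ?_⟩
    rw [← x.st_nxt]
    exact ih x.nxt

/-- the winding number of a curve around a face -/
def Cv.kap (c : Cv g) (f : Gp) : ℤ := wind c.base.st (Dt.walk c.per c.base) f

theorem Cv.closed (c : Cv g) : last c.base.st (Dt.walk c.per c.base) = c.base.st := by
  rw [Dt.last_walk]
  exact congrArg Dt.st c.dt_per

theorem Cv.kap_out (c : Cv g) {f : Gp} (h : ¬ InSq g.m f) : c.kap f = 0 :=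
  wind_out (c.base.isPath_walk _) c.closed h

theorem Cv.psum_eq (c : Cv g) (a : Gp → Gp → ℤ) :
    psum a c.base.st (Dt.walk c.per c.base) = ∑ x : Dt g with x.cur = c, a x.st x.en := by
  rw [Dt.psum_walk, ← c.sum_dt]
  rfl

/-- signed passages between two faces -/
def Dt.sg (x : Dt g) (f f' : Gp) : ℤ :=
  if x.v = f ∧ x.w = f' then 1 else if x.v = f' ∧ x.w = f then -1 else 0

theorem Dt.sg_symm (x : Dt g) {f f' : Gp} (h : GAdj f f') : x.sg f' f = -x.sg f f' := by
  rw [gadj_iff] at h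
  simp only [Dt.sg, Prod.ext_iff]
  split_ifs <;> omega

theorem Cv.jump (c : Cv g) {f f' : Gp} (h : GAdj f f') :
    c.kap f - c.kap f' = ∑ x : Dt g with x.cur = c, x.sg f f' := by
  have hv : ∀ f : Gp, c.kap (f - (1, 0)) - c.kap f =
      ∑ x : Dt g with x.cur = c, x.sg (f - (1, 0)) f := by
    intro f
    rw [Cv.kap, Cv.kap, wind_jump_v (c.base.isPath_walk _), c.psum_eq]
    refine sum_congr rfl fun x _ => ?_
    simp only [dl, Dt.sg, Dt.st, Dt.en, Dt.u, Dt.w, rq, Prod.ext_iff, Prod.fst_add, Prod.snd_add,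
      Prod.fst_sub, Prod.snd_sub]
    rcases x.un with e | e | e | e <;> simp only [e] <;> split_ifs <;> omega
  have hh : ∀ f : Gp, c.kap f - c.kap (f - (0, 1)) =
      ∑ x : Dt g with x.cur = c, x.sg f (f - (0, 1)) := by
    intro f
    rw [Cv.kap, Cv.kap, wind_jump_h (c.base.isPath_walk _) c.closed, c.psum_eq]
    refine sum_congr rfl fun x _ => ?_
    simp only [dl, Dt.sg, Dt.st, Dt.en, Dt.u, Dt.w, rq, Prod.ext_iff, Prod.fst_add, Prod.snd_add,
      Prod.fst_sub, Prod.snd_sub]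
    rcases x.un with e | e | e | e <;> simp only [e] <;> split_ifs <;> omega
  have sy : ∀ {f f' : Gp}, GAdj f f' →
      c.kap f - c.kap f' = ∑ x : Dt g with x.cur = c, x.sg f f' →
      c.kap f' - c.kap f = ∑ x : Dt g with x.cur = c, x.sg f' f := by
    intro f f' h e
    rw [← neg_sub, e, ← sum_neg_distrib]
    exact sum_congr rfl fun x _ => (x.sg_symm h).symm
  rcases id h with e | e | e | e
  · have := hv f'
    rwa [show f' - (1, 0) = f by rw [e]; abel] at this
  · refine sy (gadj_symm h) ?_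
    rw [e]
    exact hv f
  · refine sy (gadj_symm h) ?_
    have := hh f'
    rwa [show f' - (0, 1) = f by rw [e]; abel] at this
  · rw [e]
    exact hh f

/-- the curve passes between the two faces -/
def Cv.Sep (c : Cv g) (f f' : Gp) : Prop :=
  ∃ x : Dt g, x.cur = c ∧ ((x.v = f ∧ x.w = f') ∨ (x.v = f' ∧ x.w = f))

theorem Cv.kap_eq (c : Cv g) {f f' : Gp} (h : GAdj f f') (hs : ¬ c.Sep f f') :
    c.kap f = c.kap f' := by
  rw [← sub_eq_zero, c.jump h]
  refine sum_eq_zero fun x hx => ?_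
  rw [Dt.sg, if_neg fun e => hs ⟨x, (mem_filter.1 hx).2, Or.inl e⟩,
    if_neg fun e => hs ⟨x, (mem_filter.1 hx).2, Or.inr e⟩]

theorem Dt.not_rev (x y : Dt g) : ¬ (y.v = x.w ∧ y.w = x.v) := fun h =>
  g.asym _ _ x.dir_w (by have := y.dir_w; rwa [h.1, h.2] at this)

theorem Dt.kap_jump (x : Dt g) : x.cur.kap x.v - x.cur.kap x.w = 1 := by
  rw [x.cur.jump x.adj, sum_eq_single_of_mem x (by simp)]
  · simp [Dt.sg]
  · intro y _ hy
    rw [Dt.sg, if_neg fun e => hy (Dt.ext' e.1 e.2), if_neg (x.not_rev y)]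

theorem Cv.Sep.unique {c c' : Cv g} {f f' : Gp} (h : c.Sep f f') (h' : c'.Sep f f') : c = c' := by
  obtain ⟨x, rfl, hx⟩ := h
  obtain ⟨y, rfl, hy⟩ := h'
  rcases hx with ⟨rfl, rfl⟩ | ⟨rfl, rfl⟩ <;> rcases hy with hy | hy
  · rw [Dt.ext' hy.1 hy.2]
  · exact absurd hy (x.not_rev y)
  · exact absurd hy (x.not_rev y)
  · rw [Dt.ext' hy.1 hy.2]

variable (g) in
/-- faces in the same sheet -/
def Cn : Gp → Gp → Prop :=
  Relation.ReflTransGen fun x y => InSq g.m x ∧ InSq g.m y ∧ GAdj x y ∧ g.lab x = g.lab y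

theorem Cn.symm {f f' : Gp} (h : Cn g f f') : Cn g f' f := by
  induction h with
  | refl => exact .refl
  | tail _ h ih =>
    exact Relation.ReflTransGen.head ⟨h.2.1, h.1, gadj_symm h.2.2.1, h.2.2.2.symm⟩ ih

theorem Cn.one {f f' : Gp} (h1 : InSq g.m f) (h2 : InSq g.m f') (h3 : GAdj f f')
    (h4 : g.lab f = g.lab f') : Cn g f f' := Relation.ReflTransGen.single ⟨h1, h2, h3, h4⟩

theorem Cn.trans {f f' f'' : Gp} (h : Cn g f f') (h' : Cn g f' f'') : Cn g f f'' :=
  Relation.ReflTransGen.trans h h'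

theorem Cn.lab {f f' : Gp} (h : Cn g f f') : g.lab f = g.lab f' := by
  induction h with
  | refl => rfl
  | tail _ h ih => exact ih.trans h.2.2.2

theorem Cn.kap {f f' : Gp} (h : Cn g f f') (c : Cv g) : c.kap f = c.kap f' := by
  induction h with
  | refl => rfl
  | tail _ h ih =>
    refine ih.trans (c.kap_eq h.2.2.1 ?_)
    rintro ⟨x, -, ⟨rfl, rfl⟩ | ⟨rfl, rfl⟩⟩
    · exact x.lab_ne h.2.2.2.symm
    · exact x.lab_ne h.2.2.2

theorem Dt.cn_nxt (x : Dt g) : Cn g x.v x.nxt.v ∧ Cn g x.w x.nxt.w := by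
  have a1 : GAdj x.v (x.v + x.u) := x.un.rq.adj _
  have a2 : GAdj (x.v + x.u) (x.v + x.u + x.d) := x.un.adj _
  have a3 : GAdj x.w (x.v + x.u + x.d) := by
    rw [show x.v + x.u + x.d = x.w + x.u by rw [Dt.w]; abel]
    exact x.un.rq.adj _
  rcases x.nxt_cases with h | h | h
  · rw [show x.nxt.w = x.nxt.v + x.nxt.d from rfl, h.2.2.1, h.2.2.2, show x.v + x.u + x.d + -x.u = x.w by rw [Dt.w]; abel]
    exact ⟨(Cn.one x.inv x.in_u a1 h.1.symm).trans (Cn.one x.in_u x.in_ud a2 (h.1.trans h.2.1.symm)),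
      .refl⟩
  · rw [show x.nxt.w = x.nxt.v + x.nxt.d from rfl, h.2.2.1, h.2.2.2]
    exact ⟨Cn.one x.inv x.in_u a1 h.1.symm, Cn.one x.in_w x.in_ud a3 h.2.1.symm⟩
  · rw [show x.nxt.w = x.nxt.v + x.nxt.d from rfl, h.2.2.1, h.2.2.2]
    exact ⟨.refl, (Cn.one x.in_w x.in_ud a3 h.2.1.symm).trans
      (Cn.one x.in_ud x.in_u (gadj_symm a2) (h.2.1.trans h.1.symm))⟩

theorem Cv.cn_base (c : Cv g) {x : Dt g} (hx : x.cur = c) :
    Cn g c.base.v x.v ∧ Cn g c.base.w x.w :=
  c.ind (P := fun x => Cn g c.base.v x.v ∧ Cn g c.base.w x.w) ⟨.refl, .refl⟩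
    (fun x h => ⟨h.1.trans x.cn_nxt.1, h.2.trans x.cn_nxt.2⟩) hx

theorem row_ind {m : ℕ} {P : Gp → Prop} (h0 : ∀ f, InSq m f → f.1 = 0 → P f)
    (h1 : ∀ f f', InSq m f → InSq m f' → GAdj f f' → P f → P f') {f : Gp} (hf : InSq m f) :
    P f := by
  obtain ⟨x, y⟩ := f
  have hx := hf.1
  simp only at hx
  lift x to ℕ using hx
  induction x with
  | zero => exact h0 _ hf rfl
  | succ x ih =>
    have h2 : InSq m ((x : ℤ), y) := by
      simp only [InSq] at hf ⊢
      omega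
    exact h1 _ _ h2 hf (Or.inl (by simp)) (ih h2)

theorem Cv.kap_left (c : Cv g) {f : Gp} (h : f.1 = 0) : c.kap f = 0 := by
  have h1 : ¬ InSq g.m (f - (1, 0)) := by
    simp only [InSq, Prod.fst_sub]
    omega
  rw [c.kap_eq (f' := f - (1, 0)) (Or.inr (Or.inl rfl)), c.kap_out h1]
  rintro ⟨x, -, ⟨-, e⟩ | ⟨e, -⟩⟩
  · exact h1 (e ▸ x.in_w)
  · exact h1 (e ▸ x.inv)

theorem Cv.kap_base (c : Cv g) : c.kap c.base.v = 0 ∨ c.kap c.base.v = 1 := by
  have h : c.kap c.base.v = 0 ∨ c.kap c.base.v = 0 ∨ c.kap c.base.v = 1 := by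
    refine row_ind (P := fun f => c.kap f = 0 ∨ c.kap c.base.v = 0 ∨ c.kap c.base.v = 1)
      (fun f _ h => Or.inl (c.kap_left h)) (fun f f' _ _ ha h => ?_) c.base.inv
    by_cases hs : c.Sep f f'
    · obtain ⟨x, rfl, hx⟩ := hs
      have h1 := (x.cur.cn_base rfl).1.kap x.cur
      have h2 := x.kap_jump
      rcases hx with ⟨rfl, rfl⟩ | ⟨rfl, rfl⟩ <;> omega
    · rwa [← c.kap_eq ha hs]
  tauto

/-- the inside is on the left -/
def Cv.ins (c : Cv g) : Bool := decide (c.kap c.base.v = 1)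

/-- a face along the inner side -/
def Cv.inF (c : Cv g) : Gp := if c.ins then c.base.v else c.base.w

/-- a face along the outer side -/
def Cv.outF (c : Cv g) : Gp := if c.ins then c.base.w else c.base.v

theorem Cv.kap_inF (c : Cv g) : c.kap c.inF ≠ 0 ∧ c.kap c.outF = 0 := by
  have h1 := c.base.kap_jump
  have h2 := c.kap_base
  rw [c.cur_base] at h1
  simp only [Cv.inF, Cv.outF, Cv.ins, decide_eq_true_eq]
  split_ifs <;> omega

theorem Cv.in_inF (c : Cv g) : InSq g.m c.inF := by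
  unfold Cv.inF
  split_ifs
  exacts [c.base.inv, c.base.in_w]

theorem Cv.sep_inF (c : Cv g) : GAdj c.outF c.inF ∧ c.Sep c.outF c.inF := by
  unfold Cv.inF Cv.outF
  split_ifs
  · exact ⟨gadj_symm c.base.adj, c.base, c.cur_base, Or.inr ⟨rfl, rfl⟩⟩
  · exact ⟨c.base.adj, c.base, c.cur_base, Or.inl ⟨rfl, rfl⟩⟩

theorem Cv.Sep.enter {c : Cv g} {f f' : Gp} (h : c.Sep f f') (h0 : c.kap f = 0) :
    Cn g c.inF f' := by
  obtain ⟨x, hx, h⟩ := h
  obtain ⟨h1, h2⟩ := c.cn_base hx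
  have h3 := c.kap_inF.1
  unfold Cv.inF at h3 ⊢
  rcases h with ⟨rfl, rfl⟩ | ⟨rfl, rfl⟩ <;> split_ifs at h3 ⊢
  · exact absurd ((h1.kap c).trans h0) h3
  · exact h2
  · exact h1
  · exact absurd ((h2.kap c).trans h0) h3

theorem Cv.eq_of_cn {c c' : Cv g} (h : Cn g c.inF c'.inF) : c = c' := by
  by_contra hne
  have aux : ∀ {c c' : Cv g}, Cn g c.inF c'.inF → c ≠ c' → ∀ f f', GAdj f f' → c.kap f = 0 →
      c'.kap f = 0 → ¬ c.Sep f f' := by
    intro c c' h hne f f' ha h1 h2 hs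
    have h3 := (h.symm.trans (hs.enter h1)).kap c'
    rw [← c'.kap_eq ha fun h4 => hne (hs.unique h4), h2] at h3
    exact c'.kap_inF.1 h3
  refine c.kap_inF.1 (row_ind (P := fun f => c.kap f = 0 ∧ c'.kap f = 0)
    (fun f _ h => ⟨c.kap_left h, c'.kap_left h⟩) (fun f f' _ _ ha hf => ?_) c.in_inF).1
  rw [← c.kap_eq ha (aux h hne f f' ha hf.1 hf.2),
    ← c'.kap_eq ha (aux h.symm (Ne.symm hne) f f' ha hf.2 hf.1)]
  exact hf

/-- the number of curves around the inner side -/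
def Cv.lev (c : Cv g) : ℕ := #{c' : Cv g | c'.kap c.inF ≠ 0}

theorem Cv.lev_lt {c c' : Cv g} (h : Cn g c.outF c'.inF) : c'.lev < c.lev := by
  refine card_lt_card ⟨fun e he => ?_, fun hs => ?_⟩
  · rw [mem_filter_univ] at he ⊢
    rw [← h.kap e] at he
    rwa [← e.kap_eq c.sep_inF.1 fun h4 => ?_]
    rw [h4.unique c.sep_inF.2] at he
    exact he c.kap_inF.2
  · have h1 := hs ((mem_filter_univ c).2 c.kap_inF.1)
    rw [mem_filter_univ, ← h.kap c] at h1
    exact h1 c.kap_inF.2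

theorem cn_bd {f : Gp} (hf : InSq g.m f)
    (hb : f.1 = 0 ∨ f.1 = g.m - 1 ∨ f.2 = 0 ∨ f.2 = g.m - 1) : Cn g (0, 0) f := by
  have hm := g.hm
  have row : ∀ y : ℤ, (y = 0 ∨ y = g.m - 1) → ∀ x : ℕ, x < g.m → Cn g (0, y) (x, y) := by
    intro y hy x
    induction x with
    | zero => exact fun _ => .refl
    | succ x ih =>
      intro hx
      have h1 : InSq g.m ((x : ℤ), y) := by simp only [InSq]; omega
      have h2 : InSq g.m (((x + 1 : ℕ) : ℤ), y) := by simp only [InSq]; omega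
      exact (ih (by omega)).trans (Cn.one h1 h2 (Or.inl (by simp))
        ((g.bd _ h1 (by tauto)).trans (g.bd _ h2 (by tauto)).symm))
  have col : ∀ x : ℤ, (x = 0 ∨ x = g.m - 1) → ∀ y : ℕ, y < g.m → Cn g (x, 0) (x, y) := by
    intro x hx y
    induction y with
    | zero => exact fun _ => .refl
    | succ y ih =>
      intro hy
      have h1 : InSq g.m (x, (y : ℤ)) := by simp only [InSq]; omega
      have h2 : InSq g.m (x, ((y + 1 : ℕ) : ℤ)) := by simp only [InSq]; omega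
      exact (ih (by omega)).trans (Cn.one h1 h2 (Or.inr (Or.inr (Or.inl (by simp))))
        ((g.bd _ h1 (by tauto)).trans (g.bd _ h2 (by tauto)).symm))
  obtain ⟨x, y⟩ := f
  simp only [InSq] at hf hb
  lift x to ℕ using hf.1
  lift y to ℕ using hf.2.2.1
  rcases hb with h | h | h | h
  · rw [h]
    exact col 0 (Or.inl rfl) y (by omega)
  · exact (row 0 (Or.inl rfl) x (by omega)).trans (col x (Or.inr h) y (by omega))
  · rw [h]
    exact row 0 (Or.inl rfl) x (by omega)
  · exact (col 0 (Or.inl rfl) y (by omega)).trans (row y (Or.inr h) x (by omega))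

end Vale.Agent.P215Z.Gr
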