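import Vale.Agent.P215Z.Grid.Green

/-!
# P215, grid: labelled grids, darts and curves
-/

noncomputable section

namespace Vale.Agent.P215Z.Gr

open Finset

/-- a grid whose vertices are labelled by the regions -/
structure Lab where
  M : ℕ
  hM : 0 < M
  reg : Gp → F3
  sq : ∀ v, InSq M v → (∀ w, Corner v w → reg w = reg v) ∨
    ∃ g i, ∀ w, Corner v w → reg w = g ∨ reg w = g * FreeGroup.of i
  np : ∀ v, InSq M v → reg v = reg (v + (1, 1)) → reg (v + (1, 0)) = reg (v + (0, 1)) →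
    reg v = reg (v + (1, 0))
  bd : ∀ v, OnBd M v → reg v = 1

/-- unit vectors -/
def Un (d : Gp) : Prop := d = (1, 0) ∨ d = (0, 1) ∨ d = (-1, 0) ∨ d = (0, -1)

/-- the rotation by a quarter turn -/
def rot (d : Gp) : Gp := (-d.2, d.1)

theorem rot_rot (d : Gp) : rot (rot d) = -d := rfl

theorem rot_neg (d : Gp) : rot (-d) = -rot d := rfl

theorem Un.rot {d : Gp} (h : Un d) : Un (rot d) := by
  rcases h with rfl | rfl | rfl | rfl <;> simp [Un, Gr.rot]

theorem Un.neg {d : Gp} (h : Un d) : Un (-d) := h.rot.rot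

theorem Un.nb {d : Gp} (h : Un d) (r : Gp) : Nb r (r + d) := by
  rw [nb_iff]
  rcases h with rfl | rfl | rfl | rfl <;> simp

theorem Nb.un {r s : Gp} (h : Nb r s) : Un (s - r) := by
  rcases h with rfl | rfl | rfl | rfl <;> simp [Un]

theorem of_ne_one (i : Fin 3) : (FreeGroup.of i : F3) ≠ 1 := FreeGroup.of_ne_one i

theorem of_mul_of_ne_one (i j : Fin 3) : (FreeGroup.of i * FreeGroup.of j : F3) ≠ 1 := by
  intro h
  have := congrArg (FreeGroup.lift fun _ : Fin 3 => Multiplicative.ofAdd (1 : ℤ)) h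
  simp only [map_mul, FreeGroup.lift_apply_of, map_one] at this
  exact absurd (congrArg Multiplicative.toAdd this) (by simp)

namespace Lab

variable (L : Lab)

/-- a dart: a vertex on the strong side of a wall and the direction to the weak side -/
@[ext] structure Dart where
  v : Gp
  d : Gp
  un : Un d
  inv : InG L.M v
  inw : InG L.M (v + d)
  st : ∃ i, L.reg (v + d) = L.reg v * FreeGroup.of i

instance : Finite L.Dart := by
  refine Finite.of_injective (β := Set.Icc (0 : Gp) (L.M, L.M) × Set.Icc (0 : Gp) (L.M, L.M))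
    (fun x => (⟨x.v, ⟨x.inv.1, x.inv.2.2.1⟩, x.inv.2.1, x.inv.2.2.2⟩,
      ⟨x.v + x.d, ⟨x.inw.1, x.inw.2.2.1⟩, x.inw.2.1, x.inw.2.2.2⟩)) fun x y h => ?_
  have h1 : x.v = y.v := congrArg (fun z => z.1.1) h
  have h2 : x.v + x.d = y.v + y.d := congrArg (fun z => z.2.1) h
  exact Dart.ext h1 (by rwa [h1, add_right_inj] at h2)

variable {L}

namespace Dart

variable (x : L.Dart)

/-- the direction of travel -/
def u : Gp := rot x.d

/-- the vertex on the weak side -/
def w : Gp := x.v + x.d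

/-- the colour of the wall -/
def col : Fin 3 := x.st.choose

theorem reg_w : L.reg x.w = L.reg x.v * FreeGroup.of x.col := x.st.choose_spec

theorem col_eq {i : Fin 3} (h : L.reg x.w = L.reg x.v * FreeGroup.of i) : x.col = i :=
  FreeGroup.of_injective (mul_left_cancel (x.reg_w.symm.trans h))

theorem reg_ne : L.reg x.w ≠ L.reg x.v := by
  rw [x.reg_w]
  intro h
  exact of_ne_one _ (mul_eq_left.1 h)

theorem nb : Nb x.v x.w := x.un.nb _

/-- the midpoint of the edge, in the refined grid -/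
def mid : Gp := x.v + x.v + x.d

/-- the centre of the square ahead, in the refined grid -/
def ctr : Gp := x.mid + x.u

/-- the lower left corner of the square ahead -/
def sqa : Gp := (min x.v.1 (x.v + x.u + x.d).1, min x.v.2 (x.v + x.u + x.d).2)

theorem ahead : InSq L.M x.sqa ∧ Corner x.sqa x.v ∧ Corner x.sqa x.w ∧ Corner x.sqa (x.v + x.u) ∧
    Corner x.sqa (x.v + x.u + x.d) ∧ x.ctr = x.sqa + x.sqa + (1, 1) := by
  have h0 : ¬ (OnBd L.M x.v ∧ OnBd L.M x.w) := fun h =>
    x.reg_ne ((L.bd _ h.2).trans (L.bd _ h.1).symm)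
  have h1 := x.inv
  have h2 := x.inw
  simp only [OnBd, w, h1, h2, true_and] at h0
  simp only [InG, InSq, Corner, sqa, w, u, rot, ctr, mid, Prod.ext_iff, Prod.fst_add,
    Prod.snd_add] at h0 h1 h2 ⊢
  rcases x.un with e | e | e | e <;> simp only [e] at h0 h1 h2 ⊢ <;> omega

theorem inG_of_corner {M : ℕ} {s v : Gp} (h : InSq M s) (h' : Corner s v) : InG M v := by
  simp only [InG, InSq, Corner] at *
  omega

theorem in_u : InG L.M (x.v + x.u) := inG_of_corner x.ahead.1 x.ahead.2.2.2.1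

theorem in_ud : InG L.M (x.v + x.u + x.d) := inG_of_corner x.ahead.1 x.ahead.2.2.2.2.1

theorem two {z : Gp} (hz : Corner x.sqa z) : L.reg z = L.reg x.v ∨ L.reg z = L.reg x.w := by
  obtain ⟨h1, h2, h3, -⟩ := x.ahead
  rcases L.sq _ h1 with h | ⟨g, i, h⟩
  · exact absurd ((h _ h3).trans (h _ h2).symm) x.reg_ne
  · have h4 := x.reg_ne
    rcases h _ h2 with a | a <;> rcases h _ h3 with b | b <;> rcases h _ hz with c | c <;>
      simp_all

theorem nopinch (h : L.reg (x.v + x.u) ≠ L.reg x.v) : L.reg (x.v + x.u + x.d) = L.reg x.w := by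
  have h1 := (x.two x.ahead.2.2.2.1).resolve_left h
  refine (x.two x.ahead.2.2.2.2.1).resolve_left fun h2 => ?_
  have h3 := L.np _ x.ahead.1
  have h4 := x.reg_ne
  have key : (x.sqa = x.v ∧ x.sqa + (1, 1) = x.v + x.u + x.d ∧ x.sqa + (1, 0) = x.w ∧
        x.sqa + (0, 1) = x.v + x.u) ∨
      (x.sqa = x.v + x.u ∧ x.sqa + (1, 1) = x.w ∧ x.sqa + (1, 0) = x.v ∧
        x.sqa + (0, 1) = x.v + x.u + x.d) ∨
      (x.sqa = x.v + x.u + x.d ∧ x.sqa + (1, 1) = x.v ∧ x.sqa + (1, 0) = x.v + x.u ∧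
        x.sqa + (0, 1) = x.w) ∨
      (x.sqa = x.w ∧ x.sqa + (1, 1) = x.v + x.u ∧ x.sqa + (1, 0) = x.v + x.u + x.d ∧
        x.sqa + (0, 1) = x.v) := by
    simp only [sqa, w, u, rot, Prod.ext_iff, Prod.fst_add, Prod.snd_add]
    rcases x.un with e | e | e | e <;> simp only [e] <;> omega
  rcases key with ⟨e1, e2, e3, e4⟩ | ⟨e1, e2, e3, e4⟩ | ⟨e1, e2, e3, e4⟩ | ⟨e1, e2, e3, e4⟩ <;>
    rw [e2, e3, e4, e1] at h3 <;> simp_all

open Classical in
/-- the next dart along the curve -/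
def nxt : L.Dart :=
  if h : L.reg (x.v + x.u) = L.reg x.v then
    if h' : L.reg (x.v + x.u + x.d) = L.reg x.v then
      ⟨x.v + x.u + x.d, -x.u, x.un.rot.neg, x.in_ud, by
        rw [show x.v + x.u + x.d + -x.u = x.v + x.d by abel]; exact x.inw, x.col, by
        rw [show x.v + x.u + x.d + -x.u = x.v + x.d by abel, h']; exact x.reg_w⟩
    else ⟨x.v + x.u, x.d, x.un, x.in_u, x.in_ud, x.col, by
      rw [h, (x.two x.ahead.2.2.2.2.1).resolve_left h', x.reg_w]⟩
  else ⟨x.v, x.u, x.un.rot, x.inv, x.in_u, x.col, by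
    rw [(x.two x.ahead.2.2.2.1).resolve_left h, x.reg_w]⟩

theorem nxt_cases :
    (L.reg (x.v + x.u) = L.reg x.v ∧ L.reg (x.v + x.u + x.d) = L.reg x.v ∧
      x.nxt.v = x.v + x.u + x.d ∧ x.nxt.d = -x.u) ∨
    (L.reg (x.v + x.u) = L.reg x.v ∧ L.reg (x.v + x.u + x.d) = L.reg x.w ∧
      x.nxt.v = x.v + x.u ∧ x.nxt.d = x.d) ∨
    (L.reg (x.v + x.u) = L.reg x.w ∧ L.reg (x.v + x.u + x.d) = L.reg x.w ∧
      x.nxt.v = x.v ∧ x.nxt.d = x.u) := by
  unfold nxt
  split_ifs with h h'
  · exact Or.inl ⟨h, h', rfl, rfl⟩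
  · exact Or.inr (Or.inl ⟨h, (x.two x.ahead.2.2.2.2.1).resolve_left h', rfl, rfl⟩)
  · exact Or.inr (Or.inr ⟨(x.two x.ahead.2.2.2.1).resolve_left h, x.nopinch h, rfl, rfl⟩)

theorem nxt_reg : L.reg x.nxt.v = L.reg x.v := by
  rcases x.nxt_cases with h | h | h
  · rw [h.2.2.1, h.2.1]
  · rw [h.2.2.1, h.1]
  · rw [h.2.2.1]

theorem nxt_reg_w : L.reg x.nxt.w = L.reg x.w := by
  rcases x.nxt_cases with h | h | h
  · rw [w, h.2.2.1, h.2.2.2, show x.v + x.u + x.d + -x.u = x.v + x.d by abel]; rfl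
  · rw [w, h.2.2.1, h.2.2.2, h.2.1]
  · rw [w, h.2.2.1, h.2.2.2, h.1]

theorem nxt_col : x.nxt.col = x.col := x.nxt.col_eq (by rw [nxt_reg, nxt_reg_w, reg_w])

theorem nxt_mid : x.nxt.mid = x.ctr + x.nxt.u := by
  rcases x.nxt_cases with h | h | h <;>
    simp only [mid, ctr, u, h.2.2.1, h.2.2.2, rot_neg, rot_rot] <;> abel

theorem nxt_injective : Function.Injective (nxt (L := L)) := by
  have key : ∀ x : L.Dart, (x.v, x.d) =
      if L.reg (x.nxt.v - x.nxt.u) = L.reg x.nxt.v then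
        if L.reg (x.nxt.v - x.nxt.u + x.nxt.d) = L.reg x.nxt.v then
          (x.nxt.v - x.nxt.u + x.nxt.d, x.nxt.u) else (x.nxt.v - x.nxt.u, x.nxt.d)
      else (x.nxt.v, -x.nxt.u) := by
    intro x
    have h0 := x.reg_ne
    rcases x.nxt_cases with h | h | h
    · have e1 : x.nxt.u = x.d := by rw [u, h.2.2.2, rot_neg, u, rot_rot, neg_neg]
      have e2 : x.nxt.v - x.nxt.u = x.v + x.u := by rw [e1, h.2.2.1]; abel
      have e3 : x.nxt.v - x.nxt.u + x.nxt.d = x.v := by rw [e2, h.2.2.2]; abel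
      rw [e3, e2, e1, x.nxt_reg, if_pos h.1, if_pos rfl]
    · have e1 : x.nxt.u = x.u := by rw [u, h.2.2.2, u]
      have e2 : x.nxt.v - x.nxt.u = x.v := by rw [e1, h.2.2.1]; abel
      rw [e2, h.2.2.2, x.nxt_reg, if_pos rfl, if_neg (show ¬ L.reg (x.v + x.d) = _ from h0)]
    · have e1 : x.nxt.u = -x.d := by rw [u, h.2.2.2, u, rot_rot]
      have e2 : x.nxt.v - x.nxt.u = x.w := by rw [e1, h.2.2.1, w]; abel
      rw [e2, x.nxt_reg, if_neg h0, e1, h.2.2.1, neg_neg]
  intro x y h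
  have h1 := key x
  rw [h, ← key y] at h1
  exact Dart.ext (congrArg Prod.fst h1) (congrArg Prod.snd h1)

theorem nb_ctr : Nb x.mid x.ctr := x.un.rot.nb _

theorem ctr_nb : Nb x.ctr x.nxt.mid := by rw [nxt_mid]; exact x.nxt.un.rot.nb _

/-- the path in the refined grid along `n` darts; it starts at `x.mid` -/
def walk : ℕ → L.Dart → List Gp
  | 0, _ => []
  | n + 1, x => x.ctr :: x.nxt.mid :: walk n x.nxt

theorem last_walk (n : ℕ) : last x.mid (walk n x) = (nxt^[n] x).mid := by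
  induction n generalizing x with
  | zero => rfl
  | succ n ih => exact ih x.nxt

theorem psum_walk {V : Type} [AddCommGroup V] (a : Gp → Gp → V) (n : ℕ) :
    psum a x.mid (walk n x) = ∑ k ∈ range n,
      (a (nxt^[k] x).mid (nxt^[k] x).ctr + a (nxt^[k] x).ctr (nxt^[k] x).nxt.mid) := by
  induction n generalizing x with
  | zero => rfl
  | succ n ih =>
    rw [walk, psum, psum, ih, sum_range_succ', ← add_assoc, add_comm]
    rfl

theorem isPath_walk {S : Set Gp} (n : ℕ) (h : ∀ k, (nxt^[k] x).mid ∈ S ∧ (nxt^[k] x).ctr ∈ S) :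
    IsPath S x.mid (walk n x) := by
  induction n generalizing x with
  | zero => exact (h 0).1
  | succ n ih => exact ⟨(h 0).1, x.nb_ctr, (h 0).2, x.ctr_nb, ih x.nxt fun k => h (k + 1)⟩

end Dart

variable (L)

/-- the permutation of the darts -/
def nxtP : Equiv.Perm L.Dart :=
  Equiv.ofBijective Dart.nxt (Finite.injective_iff_bijective.1 Dart.nxt_injective)

/-- the curves -/
def Cv : Type := Quotient (Equiv.Perm.SameCycle.setoid L.nxtP)

instance : Finite L.Cv := Quotient.finite _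
instance : Fintype L.Cv := Fintype.ofFinite _
instance : DecidableEq L.Cv := Classical.decEq _
instance : Fintype L.Dart := Fintype.ofFinite _
instance : DecidableEq L.Dart := Classical.decEq _

variable {L}

/-- the curve of a dart -/
def Dart.cur (x : L.Dart) : L.Cv := Quotient.mk _ x

/-- the first dart of a curve -/
def Cv.base (c : L.Cv) : L.Dart := Quotient.out c

/-- the number of darts of a curve -/
def Cv.per (c : L.Cv) : ℕ := Function.minimalPeriod Dart.nxt c.base

/-- the darts of a curve -/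
def Cv.dart (c : L.Cv) (k : ℕ) : L.Dart := Dart.nxt^[k] c.base

/-- a curve as a closed path in the refined grid; it starts at `c.base.mid` -/
def Cv.loop (c : L.Cv) : List Gp := Dart.walk c.per c.base

theorem Cv.cur_base (c : L.Cv) : c.base.cur = c := Quotient.out_eq c

theorem Dart.cur_nxt (x : L.Dart) : x.nxt.cur = x.cur :=
  Quotient.sound (Equiv.Perm.sameCycle_apply_left (f := L.nxtP).2 (Equiv.Perm.SameCycle.refl _ _))

theorem Dart.cur_iter (x : L.Dart) (k : ℕ) : (Dart.nxt^[k] x).cur = x.cur := by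
  induction k with
  | zero => rfl
  | succ k ih => rw [Function.iterate_succ_apply', Dart.cur_nxt, ih]

theorem Cv.cur_dart (c : L.Cv) (k : ℕ) : (c.dart k).cur = c := by
  rw [Cv.dart, Dart.cur_iter, Cv.cur_base]

theorem Cv.dart_succ (c : L.Cv) (k : ℕ) : c.dart (k + 1) = (c.dart k).nxt :=
  Function.iterate_succ_apply' _ _ _

theorem Cv.per_pos (c : L.Cv) : 0 < c.per :=
  Function.minimalPeriod_pos_of_mem_periodicPts (Dart.nxt_injective.mem_periodicPts _)

theorem Cv.dart_per (c : L.Cv) : c.dart c.per = c.base := Function.iterate_minimalPeriod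

theorem Cv.dart_inj (c : L.Cv) {j k : ℕ} (hj : j < c.per) (hk : k < c.per)
    (h : c.dart j = c.dart k) : j = k := Function.iterate_injOn_Iio_minimalPeriod hj hk h

theorem Dart.exists_dart (x : L.Dart) : ∃ k < x.cur.per, x.cur.dart k = x := by
  have h : L.nxtP.SameCycle x.cur.base x := Quotient.exact x.cur.cur_base
  obtain ⟨i, -, hi⟩ := h.exists_pow_eq'
  refine ⟨i % x.cur.per, Nat.mod_lt _ x.cur.per_pos, ?_⟩
  rw [Cv.dart, Cv.per, Function.iterate_mod_minimalPeriod_eq]
  rw [Equiv.Perm.coe_pow] at hi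
  exact hi

theorem Cv.last_loop (c : L.Cv) : last c.base.mid c.loop = c.base.mid := by
  rw [Cv.loop, Dart.last_walk]
  exact congrArg Dart.mid c.dart_per

/-- sums over the darts of a curve -/
theorem Cv.sum_dart {V : Type} [AddCommMonoid V] (c : L.Cv) (f : L.Dart → V) :
    ∑ k ∈ range c.per, f (c.dart k) = ∑ x : L.Dart with x.cur = c, f x := by
  refine sum_bij (fun k _ => c.dart k) (fun k _ => by simp [c.cur_dart])
    (fun j hj k hk h => c.dart_inj (mem_range.1 hj) (mem_range.1 hk) h) (fun x hx => ?_)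
    fun _ _ => rfl
  obtain rfl := (mem_filter.1 hx).2
  obtain ⟨k, hk, e⟩ := x.exists_dart
  exact ⟨k, mem_range.2 hk, e⟩

theorem Cv.psum_loop {V : Type} [AddCommGroup V] (c : L.Cv) (a : Gp → Gp → V) :
    psum a c.base.mid c.loop = ∑ x : L.Dart with x.cur = c, (a x.mid x.ctr + a x.ctr x.nxt.mid) := by
  rw [Cv.loop, Dart.psum_walk, ← c.sum_dart]
  rfl

/-- properties which propagate along a curve -/
theorem Cv.ind (c : L.Cv) {P : L.Dart → Prop} (h0 : P c.base) (h1 : ∀ x, P x → P x.nxt)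
    {x : L.Dart} (hx : x.cur = c) : P x := by
  subst hx
  obtain ⟨k, -, e⟩ := x.exists_dart
  rw [← e]
  clear e
  induction k with
  | zero => exact h0
  | succ k ih => rw [Cv.dart_succ]; exact h1 _ ih

theorem Dart.reg_base (x : L.Dart) : L.reg x.v = L.reg x.cur.base.v :=
  x.cur.ind (P := fun y => L.reg y.v = L.reg x.cur.base.v) rfl
    (fun y h => y.nxt_reg.trans h) rfl

theorem Dart.col_base (x : L.Dart) : x.col = x.cur.base.col :=
  x.cur.ind (P := fun y => y.col = x.cur.base.col) rfl (fun y h => y.nxt_col.trans h) rfl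

end Lab

end Vale.Agent.P215Z.Gr
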