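import Vale.Agent.P215Z.Lat

/-!
# P215, grid: winding numbers and the discrete Green formula
-/

noncomputable section

namespace Vale.Agent.P215Z.Gr

open Finset

/-- neighbours in the plane grid -/
def Nb (r s : Gp) : Prop :=
  s = r + (1, 0) ∨ s = r + (0, 1) ∨ r = s + (1, 0) ∨ r = s + (0, 1)

instance (r s : Gp) : Decidable (Nb r s) := by unfold Nb; infer_instance

theorem Nb.symm {r s : Gp} (h : Nb r s) : Nb s r := by unfold Nb at *; tauto

theorem nb_iff {r s : Gp} : Nb r s ↔ (s.1 = r.1 + 1 ∧ s.2 = r.2) ∨ (s.1 = r.1 ∧ s.2 = r.2 + 1) ∨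
    (r.1 = s.1 + 1 ∧ s.2 = r.2) ∨ (s.1 = r.1 ∧ r.2 = s.2 + 1) := by
  simp only [Nb, Prod.ext_iff, Prod.fst_add, Prod.snd_add]
  omega

/-- paths in a set `S`: the start and the list of the next points -/
def IsPath (S : Set Gp) : Gp → List Gp → Prop
  | r, [] => r ∈ S
  | r, s :: l => r ∈ S ∧ Nb r s ∧ IsPath S s l

/-- the end of a path -/
def last : Gp → List Gp → Gp
  | r, [] => r
  | _, s :: l => last s l

theorem IsPath.start {S : Set Gp} {r : Gp} {l : List Gp} (h : IsPath S r l) : r ∈ S := by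
  cases l with
  | nil => exact h
  | cons s l => exact h.1

theorem IsPath.last_mem {S : Set Gp} {r : Gp} {l : List Gp} (h : IsPath S r l) : last r l ∈ S := by
  induction l generalizing r with
  | nil => exact h
  | cons s l ih => exact ih h.2.2

theorem IsPath.mono {S T : Set Gp} (e : S ⊆ T) {r : Gp} {l : List Gp} (h : IsPath S r l) :
    IsPath T r l := by
  induction l generalizing r with
  | nil => exact e h
  | cons s l ih => exact ⟨e h.1, h.2.1, ih h.2.2⟩

theorem IsPath.mem {S : Set Gp} {r : Gp} {l : List Gp} (h : IsPath S r l) : ∀ s ∈ l, s ∈ S := by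
  induction l generalizing r with
  | nil => simp
  | cons s l ih =>
    intro x hx
    rcases List.mem_cons.1 hx with rfl | hx
    · exact h.2.2.start
    · exact ih h.2.2 x hx

theorem last_append (r : Gp) (l l' : List Gp) : last r (l ++ l') = last (last r l) l' := by
  induction l generalizing r with
  | nil => rfl
  | cons s l ih => exact ih s

theorem IsPath.append {S : Set Gp} {r : Gp} {l l' : List Gp} (h : IsPath S r l)
    (h' : IsPath S (last r l) l') : IsPath S r (l ++ l') := by
  induction l generalizing r with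
  | nil => exact h'
  | cons s l ih => exact ⟨h.1, h.2.1, ih h.2.2 h'⟩

/-- the reversed path, which starts at `last r l` -/
def rev : Gp → List Gp → List Gp
  | _, [] => []
  | r, s :: l => rev s l ++ [r]

theorem last_rev (r : Gp) (l : List Gp) : last (last r l) (rev r l) = r := by
  cases l with
  | nil => rfl
  | cons s l => rw [rev, last_append]; rfl

theorem IsPath.rev {S : Set Gp} {r : Gp} {l : List Gp} (h : IsPath S r l) :
    IsPath S (last r l) (rev r l) := by
  induction l generalizing r with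
  | nil => exact h
  | cons s l ih =>
    refine (ih h.2.2).append ?_
    rw [last_rev]
    exact ⟨h.2.2.start, h.2.1.symm, h.1⟩

variable {V : Type} [AddCommGroup V]

/-- the sum of an edge function along a path -/
def psum (a : Gp → Gp → V) : Gp → List Gp → V
  | _, [] => 0
  | r, s :: l => a r s + psum a s l

theorem psum_append (a : Gp → Gp → V) (r : Gp) (l l' : List Gp) :
    psum a r (l ++ l') = psum a r l + psum a (last r l) l' := by
  induction l generalizing r with
  | nil => simp [psum, last]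
  | cons s l ih => simp only [List.cons_append, psum, last, ih, add_assoc]

theorem psum_congr {S : Set Gp} {a b : Gp → Gp → V}
    (e : ∀ r ∈ S, ∀ s ∈ S, Nb r s → a r s = b r s) {r : Gp} {l : List Gp} (h : IsPath S r l) :
    psum a r l = psum b r l := by
  induction l generalizing r with
  | nil => rfl
  | cons s l ih => rw [psum, psum, e r h.1 s h.2.2.start h.2.1, ih h.2.2]

theorem psum_tel {S : Set Gp} {a : Gp → Gp → V} (ψ : Gp → V)
    (e : ∀ r ∈ S, ∀ s ∈ S, Nb r s → a r s = ψ s - ψ r) {r : Gp} {l : List Gp}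
    (h : IsPath S r l) : psum a r l = ψ (last r l) - ψ r := by
  induction l generalizing r with
  | nil => simp [psum, last]
  | cons s l ih => rw [psum, e r h.1 s h.2.2.start h.2.1, ih h.2.2, last]; abel

theorem psum_add (a b : Gp → Gp → V) (r : Gp) (l : List Gp) :
    psum (fun x y => a x y + b x y) r l = psum a r l + psum b r l := by
  induction l generalizing r with
  | nil => simp [psum]
  | cons s l ih => simp only [psum, ih]; abel

theorem psum_sum_smul {ι : Type} (T : Finset ι) (k : ι → Gp → Gp → ℤ) (c : ι → V) (r : Gp)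
    (l : List Gp) : psum (fun x y => ∑ i ∈ T, k i x y • c i) r l = ∑ i ∈ T, psum (k i) r l • c i := by
  induction l generalizing r with
  | nil => simp [psum]
  | cons s l ih => simp only [psum, ih, add_smul, sum_add_distrib]

/-- the counterclockwise boundary of the face with the lower left corner `f` -/
def faceL (f : Gp) : List Gp := [f + (1, 0), f + (1, 1), f + (0, 1), f]

/-- the sum along the boundary of a face -/
def curl (a : Gp → Gp → V) (f : Gp) : V := psum a f (faceL f)

/-- signed crossings of the ray from the face `f` to the right -/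
def fan (f r s : Gp) : ℤ :=
  if f.1 < r.1 ∧ s.1 = r.1 ∧ r.2 = f.2 ∧ s.2 = f.2 + 1 then 1
  else if f.1 < r.1 ∧ s.1 = r.1 ∧ s.2 = f.2 ∧ r.2 = f.2 + 1 then -1 else 0

/-- the winding number of a loop around a face -/
def wind (r : Gp) (l : List Gp) (f : Gp) : ℤ := psum (fan f) r l

/-- signed passages through the edge from `x` to `y` -/
def dl (x y r s : Gp) : ℤ := if r = x ∧ s = y then 1 else if r = y ∧ s = x then -1 else 0

theorem wind_jump_v {S : Set Gp} {r : Gp} {l : List Gp} (h : IsPath S r l) (x : Gp) :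
    wind r l (x - (1, 0)) - wind r l x = psum (dl x (x + (0, 1))) r l := by
  have h1 := psum_add (fan x) (dl x (x + (0, 1))) r l
  have h2 : psum (fan (x - (1, 0))) r l =
      psum (fun r s => fan x r s + dl x (x + (0, 1)) r s) r l := by
    refine psum_congr (fun p _ q _ hpq => ?_) h
    rw [nb_iff] at hpq
    simp only [fan, dl, Prod.ext_iff, Prod.fst_sub, Prod.snd_sub, Prod.fst_add, Prod.snd_add]
    split_ifs <;> omega
  rw [wind, wind, h2, h1]
  abel

theorem fan_h (x : Gp) {r s : Gp} (h : Nb r s) :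
    fan x r s = fan (x - (0, 1)) r s + dl x (x + (1, 0)) r s +
      ((if s.2 = x.2 ∧ x.1 < s.1 then (-1 : ℤ) else 0) -
        (if r.2 = x.2 ∧ x.1 < r.1 then (-1 : ℤ) else 0)) := by
  obtain ⟨x1, x2⟩ := x
  obtain ⟨r1, r2⟩ := r
  obtain ⟨s1, s2⟩ := s
  rw [nb_iff] at h
  simp only [fan, dl, Prod.mk_sub_mk, Prod.mk_add_mk, Prod.mk.injEq] at h ⊢
  rcases h with ⟨rfl, rfl⟩ | ⟨rfl, rfl⟩ | ⟨rfl, rfl⟩ | ⟨rfl, rfl⟩ <;> split_ifs <;> omega

theorem wind_jump_h {S : Set Gp} {r : Gp} {l : List Gp} (h : IsPath S r l) (hl : last r l = r)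
    (x : Gp) : wind r l x - wind r l (x - (0, 1)) = psum (dl x (x + (1, 0))) r l := by
  have h1 := psum_add (fan (x - (0, 1))) (dl x (x + (1, 0))) r l
  have h3 := psum_add (fun r s => fan (x - (0, 1)) r s + dl x (x + (1, 0)) r s)
    (fun r s => (if s.2 = x.2 ∧ x.1 < s.1 then (-1 : ℤ) else 0) -
      (if r.2 = x.2 ∧ x.1 < r.1 then (-1 : ℤ) else 0)) r l
  have h4 := psum_tel (S := S) (a := fun r s => (if s.2 = x.2 ∧ x.1 < s.1 then (-1 : ℤ) else 0) -
      (if r.2 = x.2 ∧ x.1 < r.1 then (-1 : ℤ) else 0))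
      (fun s => if s.2 = x.2 ∧ x.1 < s.1 then (-1 : ℤ) else 0) (fun _ _ _ _ _ => rfl) h
  rw [hl, sub_self] at h4
  have h2 : psum (fan x) r l = psum (fun r s => fan (x - (0, 1)) r s + dl x (x + (1, 0)) r s +
      ((if s.2 = x.2 ∧ x.1 < s.1 then (-1 : ℤ) else 0) -
        (if r.2 = x.2 ∧ x.1 < r.1 then (-1 : ℤ) else 0))) r l := by
    exact psum_congr (fun p _ q _ hpq => fan_h x hpq) h
  rw [wind, wind, h2, h3, h1, h4]
  abel

/-- the square grid of size `n` -/
def Bx (n : ℕ) : Set Gp := {r | InG n r}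

/-- its faces -/
def faces (n : ℕ) : Finset Gp := Ico (0 : ℤ) n ×ˢ Ico (0 : ℤ) n

theorem mem_faces {n : ℕ} {f : Gp} : f ∈ faces n ↔ InSq n f := by
  simp only [faces, mem_product, mem_Ico, InSq]
  tauto

theorem wind_out {n : ℕ} {r : Gp} {l : List Gp} (h : IsPath (Bx n) r l) (hl : last r l = r)
    {f : Gp} (hf : ¬ InSq n f) : wind r l f = 0 := by
  have h4 := psum_tel (S := Bx n) (a := fan f)
    (fun s => if f.1 < 0 ∧ f.2 < s.2 then (1 : ℤ) else 0) (fun p hp q hq hpq => ?_) h
  · rw [wind, h4, hl, sub_self]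
  · rw [nb_iff] at hpq
    simp only [Bx, InG, Set.mem_ofPred_eq, InSq] at hp hq hf
    simp only [fan]
    split_ifs <;> omega

theorem curl_eq {S : Set Gp} {a : Gp → Gp → V}
    (ha : ∀ r ∈ S, ∀ s ∈ S, Nb r s → a s r = -a r s) {x y : ℤ} (h1 : (x, y) ∈ S)
    (h2 : (x, y + 1) ∈ S) (h3 : (x + 1, y + 1) ∈ S) :
    curl a (x, y) = a (x, y) (x + 1, y) + a (x + 1, y) (x + 1, y + 1) -
      a (x, y + 1) (x + 1, y + 1) - a (x, y) (x, y + 1) := by
  simp only [curl, faceL, psum, Prod.mk_add_mk, add_zero]
  rw [ha _ h2 _ h3 (by simp [Nb]), ha _ h1 _ h2 (by simp [Nb])]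
  abel

/-- the discrete Green formula -/
theorem green {n : ℕ} {a : Gp → Gp → V}
    (ha : ∀ r ∈ Bx n, ∀ s ∈ Bx n, Nb r s → a s r = -a r s) {r : Gp} {l : List Gp}
    (h : IsPath (Bx n) r l) (hl : last r l = r) :
    psum a r l = ∑ f ∈ faces n, wind r l f • curl a f := by
  let φ : ℕ → ℤ → V := fun k y => ∑ i ∈ range k, a (i, y) (i + 1, y)
  let ψ : Gp → V := fun s => φ s.1.toNat s.2 + ∑ j ∈ range s.2.toNat, a (0, j) (0, j + 1)
  have up : ∀ (x y : ℕ), x ≤ n → y < n → a (x, y) (x, y + 1) =
      (∑ f ∈ faces n, fan f (x, y) (x, y + 1) • curl a f) + (ψ (x, y + 1) - ψ (x, y)) := by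
    intro x y hx hy
    have e1 : ∑ f ∈ faces n, fan f (x, y) (x, y + 1) • curl a f =
        ∑ i ∈ range x, curl a (i, y) := by
      rw [← sum_image (s := range x) (g := fun i : ℕ => ((i : ℤ), (y : ℤ))) (f := curl a)
        (fun i _ j _ e => by simpa using e)]
      symm
      refine sum_subset_zero_on_sdiff ?_ ?_ ?_
      · intro f hf
        obtain ⟨i, hi, rfl⟩ := mem_image.1 hf
        rw [mem_range] at hi
        rw [mem_faces]
        simp only [InSq]
        omega
      · intro f hf
        obtain ⟨h1, h2⟩ := mem_sdiff.1 hf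
        rw [mem_faces] at h1
        have h3 : ¬ (f.1 < x ∧ f.2 = y) := by
          rintro ⟨h4, h5⟩
          refine h2 (mem_image.2 ⟨f.1.toNat, mem_range.2 ?_, Prod.ext ?_ h5.symm⟩)
          · have := h1.1; omega
          · have := h1.1; simp only; omega
        have : fan f (x, y) (x, y + 1) = 0 := by
          simp only [fan]
          split_ifs <;> omega
        rw [this, zero_smul]
      · intro f hf
        obtain ⟨i, hi, rfl⟩ := mem_image.1 hf
        rw [mem_range] at hi
        have : fan (i, y) (x, y) (x, y + 1) = 1 := by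
          simp [fan, hi]
        rw [this, one_smul]
    have e2 : ∀ k : ℕ, k ≤ n → ∑ i ∈ range k, curl a (i, y) =
        a (k, y) (k, y + 1) - a (0, y) (0, y + 1) + φ k y - φ k (y + 1) := by
      intro k hk
      induction k with
      | zero => simp [φ]
      | succ k ih =>
        rw [sum_range_succ, ih (by omega), curl_eq ha (by simp only [Bx, InG, Set.mem_ofPred_eq]; omega)
          (by simp only [Bx, InG, Set.mem_ofPred_eq]; omega)
          (by simp only [Bx, InG, Set.mem_ofPred_eq]; omega)]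
        simp only [φ, sum_range_succ]
        push_cast
        abel
    rw [e1, e2 x hx]
    have e3 : ((y : ℤ) + 1).toNat = y + 1 := by omega
    simp only [ψ, Int.toNat_natCast, e3, sum_range_succ]
    abel
  have rt : ∀ (x y : ℕ), a (x, y) (x + 1, y) =
      (∑ f ∈ faces n, fan f (x, y) (x + 1, y) • curl a f) + (ψ (x + 1, y) - ψ (x, y)) := by
    intro x y
    rw [sum_eq_zero fun f _ => by
      have : fan f (x, y) (x + 1, y) = 0 := by
        simp only [fan]
        split_ifs <;> omega
      rw [this, zero_smul]]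
    have e3 : ((x : ℤ) + 1).toNat = x + 1 := by omega
    simp only [ψ, φ, Int.toNat_natCast, e3, sum_range_succ]
    abel
  have fw : ∀ p ∈ Bx n, ∀ q ∈ Bx n, q = p + (1, 0) ∨ q = p + (0, 1) →
      a p q = (∑ f ∈ faces n, fan f p q • curl a f) + (ψ q - ψ p) := by
    rintro ⟨x, y⟩ hp q hq hpq
    simp only [Bx, InG, Set.mem_ofPred_eq] at hp hq
    lift x to ℕ using hp.1
    lift y to ℕ using hp.2.2.1
    rcases hpq with rfl | rfl
    · simpa using rt x y
    · simp only [Prod.mk_add_mk, add_zero] at hq ⊢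
      exact up x y (by omega) (by omega)
  have st : ∀ p ∈ Bx n, ∀ q ∈ Bx n, Nb p q →
      a p q = (∑ f ∈ faces n, fan f p q • curl a f) + (ψ q - ψ p) := by
    intro p hp q hq hpq
    have bw : p = q + (1, 0) ∨ p = q + (0, 1) →
        a p q = (∑ f ∈ faces n, fan f p q • curl a f) + (ψ q - ψ p) := by
      intro h5
      rw [ha q hq p hp hpq.symm, fw q hq p hp h5, neg_add, neg_sub, ← sum_neg_distrib]
      congr 1
      refine sum_congr rfl fun f _ => ?_
      rw [← neg_smul]
      congr 1
      simp only [fan]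
      split_ifs <;> omega
    rcases hpq with h5 | h5 | h5 | h5
    · exact fw p hp q hq (Or.inl h5)
    · exact fw p hp q hq (Or.inr h5)
    · exact bw (Or.inl h5)
    · exact bw (Or.inr h5)
  rw [psum_congr st h, psum_add, psum_sum_smul,
    psum_tel (S := Bx n) ψ (fun _ _ _ _ _ => rfl) h, hl, sub_self, add_zero]
  rfl

end Vale.Agent.P215Z.Gr
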