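import Vale.Agent.P215Z.Grid.Pot
import Vale.Agent.P215Z.Grid.Green

/-! P215, grid: oriented interface edges and their successor -/

noncomputable section

namespace Vale.Agent.P215Z.Gr

open Finset

/-- unit vectors -/
def Uv (d : Gp) : Prop := d = (1, 0) ∨ d = (0, 1) ∨ d = (-1, 0) ∨ d = (0, -1)

/-- the rotation by a quarter turn -/
def rq (d : Gp) : Gp := (-d.2, d.1)

theorem rq_rq (d : Gp) : rq (rq d) = -d := rfl

theorem rq_neg (d : Gp) : rq (-d) = -rq d := rfl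

theorem Uv.rq {d : Gp} (h : Uv d) : Uv (rq d) := by
  rcases h with rfl | rfl | rfl | rfl <;> simp [Uv, Gr.rq]

theorem Uv.neg {d : Gp} (h : Uv d) : Uv (-d) := h.rq.rq

theorem Uv.adj {d : Gp} (h : Uv d) (r : Gp) : GAdj r (r + d) := by
  rw [gadj_iff]
  rcases h with rfl | rfl | rfl | rfl <;> simp [sub_eq_add_neg]

theorem uv_of_gadj {r s : Gp} (h : GAdj r s) : Uv (s - r) := by
  rcases h with rfl | rfl | rfl | rfl <;> simp [Uv]

theorem nb_of_gadj {r s : Gp} (h : GAdj r s) : Nb r s := by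
  rw [gadj_iff] at h
  rw [nb_iff]
  omega

theorem lf_E (r : Gp) : lf r (r + (1, 0)) = r := by simp [lf]

theorem lf_N (r : Gp) : lf r (r + (0, 1)) = r - (1, 0) := by simp [lf]

theorem lf_W (r : Gp) : lf r (r - (1, 0)) = r - (1, 1) := by simp [lf, sub_eq_add_neg]

theorem lf_S (r : Gp) : lf r (r - (0, 1)) = r - (0, 1) := by simp [lf, sub_eq_add_neg]

theorem lf_cases {r s : Gp} (h : GAdj r s) :
    (s.1 = r.1 + 1 ∧ s.2 = r.2 ∧ (lf r s).1 = r.1 ∧ (lf r s).2 = r.2 ∧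
      (rt r s).1 = r.1 ∧ (rt r s).2 = r.2 - 1) ∨
    (s.1 = r.1 - 1 ∧ s.2 = r.2 ∧ (lf r s).1 = r.1 - 1 ∧ (lf r s).2 = r.2 - 1 ∧
      (rt r s).1 = r.1 - 1 ∧ (rt r s).2 = r.2) ∨
    (s.1 = r.1 ∧ s.2 = r.2 + 1 ∧ (lf r s).1 = r.1 - 1 ∧ (lf r s).2 = r.2 ∧
      (rt r s).1 = r.1 ∧ (rt r s).2 = r.2) ∨
    (s.1 = r.1 ∧ s.2 = r.2 - 1 ∧ (lf r s).1 = r.1 ∧ (lf r s).2 = r.2 - 1 ∧
      (rt r s).1 = r.1 - 1 ∧ (rt r s).2 = r.2 - 1) := by
  rcases h with rfl | rfl | rfl | rfl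
  · left
    rw [rt, lf_E]
    have := lf_W (r + (1, 0))
    rw [add_sub_cancel_right] at this
    rw [this]
    simp
  · right; left
    rw [rt, lf_W]
    have := lf_E (r - (1, 0))
    rw [sub_add_cancel] at this
    rw [this]
    simp
  · right; right; left
    rw [rt, lf_N]
    have := lf_S (r + (0, 1))
    rw [add_sub_cancel_right] at this
    rw [this]
    simp
  · right; right; right
    rw [rt, lf_S]
    have := lf_N (r - (0, 1))
    rw [sub_add_cancel] at this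
    rw [this]
    simp

variable {Λ : Type} (g : LabGrid Λ)

theorem dir_irrefl (x : Λ) : ¬ g.dir x x := fun h => g.asym x x h h

/-- an oriented interface edge: the face on its left and the direction to the face on its right -/
@[ext] structure Dt where
  v : Gp
  d : Gp
  un : Uv d
  inv : InSq g.m v
  inw : InSq g.m (v + d)
  dir : g.dir (g.lab v) (g.lab (v + d))

instance : Finite (Dt g) := by
  refine Finite.of_injective (β := Set.Icc (0 : Gp) (g.m, g.m) × Set.Icc (0 : Gp) (g.m, g.m))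
    (fun x => (⟨x.v, ⟨x.inv.1, x.inv.2.2.1⟩, x.inv.2.1.le, x.inv.2.2.2.le⟩,
      ⟨x.v + x.d, ⟨x.inw.1, x.inw.2.2.1⟩, x.inw.2.1.le, x.inw.2.2.2.le⟩)) fun x y h => ?_
  have h1 : x.v = y.v := congrArg (fun z => z.1.1) h
  have h2 : x.v + x.d = y.v + y.d := congrArg (fun z => z.2.1) h
  exact Dt.ext h1 (by rwa [h1, add_right_inj] at h2)

variable {g}

namespace Dt

variable (x : Dt g)

/-- the direction of travel -/
def u : Gp := rq x.d

/-- the face on the right -/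
def w : Gp := x.v + x.d

/-- the end point -/
def en : Gp := (x.v.1 + (1 + x.d.1 - x.d.2) / 2, x.v.2 + (1 + x.d.1 + x.d.2) / 2)

/-- the starting point -/
def st : Gp := x.en - x.u

theorem dir_w : g.dir (g.lab x.v) (g.lab x.w) := x.dir

theorem in_w : InSq g.m x.w := x.inw

theorem lab_ne : g.lab x.w ≠ g.lab x.v := fun h => dir_irrefl g _ (h ▸ x.dir_w)

theorem adj : GAdj x.v x.w := x.un.adj _

theorem ext' {x y : Dt g} (h : x.v = y.v) (h' : x.w = y.w) : x = y :=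
  Dt.ext h (by rwa [w, w, h, add_right_inj] at h')

theorem st_adj : GAdj x.st x.en := by
  have := x.un.rq.adj x.st
  rwa [st, ← u, sub_add_cancel] at this

theorem lf_eq : lf x.st x.en = x.v := by
  have h := lf_cases x.st_adj
  rw [Prod.ext_iff]
  generalize lf x.st x.en = a, rt x.st x.en = b at h ⊢
  simp only [st, en, u, rq, Prod.fst_sub, Prod.snd_sub] at h
  rcases x.un with e | e | e | e <;> simp only [e] at h <;> omega

theorem rt_eq : rt x.st x.en = x.w := by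
  have h := lf_cases x.st_adj
  rw [Prod.ext_iff]
  generalize lf x.st x.en = a, rt x.st x.en = b at h ⊢
  simp only [st, en, u, w, rq, Prod.fst_sub, Prod.snd_sub, Prod.fst_add, Prod.snd_add] at h ⊢
  rcases x.un with e | e | e | e <;> simp only [e] at h ⊢ <;> omega

theorem ie : g.IE x.st x.en := by
  refine ⟨x.st_adj, ?_⟩
  rw [lf_eq, rt_eq]
  exact ⟨x.inv, x.inw, x.dir⟩

theorem ahead : InSq g.m x.en ∧ InSq g.m (x.en - (1, 1)) ∧ Corner x.v x.en ∧ Corner x.w x.en ∧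
    Corner (x.v + x.u) x.en ∧ Corner (x.v + x.u + x.d) x.en ∧ InSq g.m (x.v + x.u) ∧
    InSq g.m (x.v + x.u + x.d) ∧ InG g.m x.st ∧ InG g.m x.en := by
  have h1 := x.inv
  have h2 := x.in_w
  have h0 : ¬ ((x.v.1 = 0 ∨ x.v.1 = g.m - 1 ∨ x.v.2 = 0 ∨ x.v.2 = g.m - 1) ∧
      (x.w.1 = 0 ∨ x.w.1 = g.m - 1 ∨ x.w.2 = 0 ∨ x.w.2 = g.m - 1)) := fun h =>
    x.lab_ne ((g.bd _ h2 h.2).trans (g.bd _ h1 h.1).symm)
  simp only [InG, InSq, Corner, w, u, rq, st, en, Prod.fst_add, Prod.snd_add, Prod.fst_sub,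
    Prod.snd_sub] at h0 h1 h2 ⊢
  rcases x.un with e | e | e | e <;> simp only [e] at h0 h1 h2 ⊢ <;> omega

theorem in_u : InSq g.m (x.v + x.u) := x.ahead.2.2.2.2.2.2.1

theorem in_ud : InSq g.m (x.v + x.u + x.d) := x.ahead.2.2.2.2.2.2.2.1

theorem two {z : Gp} (hz : Corner z x.en) : g.lab z = g.lab x.v ∨ g.lab z = g.lab x.w := by
  obtain ⟨h1, h0, h2, h3, -⟩ := x.ahead
  obtain ⟨⟨a, b, h⟩, -⟩ := g.two _ h1 h0
  have h4 := x.lab_ne
  rcases h _ h2 with a | a <;> rcases h _ h3 with b | b <;> rcases h _ hz with c | c <;> simp_all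

theorem two_u : g.lab (x.v + x.u) = g.lab x.v ∨ g.lab (x.v + x.u) = g.lab x.w :=
  x.two x.ahead.2.2.2.2.1

theorem two_ud : g.lab (x.v + x.u + x.d) = g.lab x.v ∨ g.lab (x.v + x.u + x.d) = g.lab x.w :=
  x.two x.ahead.2.2.2.2.2.1

theorem nopinch (h : g.lab (x.v + x.u) ≠ g.lab x.v) : g.lab (x.v + x.u + x.d) = g.lab x.w := by
  have h1 := x.two_u.resolve_left h
  refine x.two_ud.resolve_left fun h2 => ?_
  have h3 := (g.two _ x.ahead.1 x.ahead.2.1).2
  have h4 := x.lab_ne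
  have key : (x.en = x.v + x.u + x.d ∧ x.en - (1, 1) = x.v ∧ x.en - (1, 0) = x.v + x.u ∧
        x.en - (0, 1) = x.w) ∨
      (x.en = x.w ∧ x.en - (1, 1) = x.v + x.u ∧ x.en - (1, 0) = x.v + x.u + x.d ∧
        x.en - (0, 1) = x.v) ∨
      (x.en = x.v ∧ x.en - (1, 1) = x.v + x.u + x.d ∧ x.en - (1, 0) = x.w ∧
        x.en - (0, 1) = x.v + x.u) ∨
      (x.en = x.v + x.u ∧ x.en - (1, 1) = x.w ∧ x.en - (1, 0) = x.v ∧
        x.en - (0, 1) = x.v + x.u + x.d) := by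
    simp only [en, w, u, rq, Prod.ext_iff, Prod.fst_add, Prod.snd_add, Prod.fst_sub, Prod.snd_sub]
    rcases x.un with e | e | e | e <;> simp only [e] <;> omega
  rcases key with ⟨e1, e2, e3, e4⟩ | ⟨e1, e2, e3, e4⟩ | ⟨e1, e2, e3, e4⟩ | ⟨e1, e2, e3, e4⟩ <;>
    rw [e2, e3, e4, e1] at h3 <;> simp_all

open Classical in
/-- the next interface edge -/
def nxt : Dt g :=
  if h : g.lab (x.v + x.u) = g.lab x.v then
    if h' : g.lab (x.v + x.u + x.d) = g.lab x.v then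
      ⟨x.v + x.u + x.d, -x.u, x.un.rq.neg, x.in_ud, by
        rw [show x.v + x.u + x.d + -x.u = x.v + x.d by abel]; exact x.inw, by
        rw [show x.v + x.u + x.d + -x.u = x.v + x.d by abel, h']; exact x.dir⟩
    else ⟨x.v + x.u, x.d, x.un, x.in_u, x.in_ud, by
      rw [h, x.two_ud.resolve_left h']; exact x.dir⟩
  else ⟨x.v, x.u, x.un.rq, x.inv, x.in_u, by rw [x.two_u.resolve_left h]; exact x.dir⟩

theorem nxt_cases :
    (g.lab (x.v + x.u) = g.lab x.v ∧ g.lab (x.v + x.u + x.d) = g.lab x.v ∧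
      x.nxt.v = x.v + x.u + x.d ∧ x.nxt.d = -x.u) ∨
    (g.lab (x.v + x.u) = g.lab x.v ∧ g.lab (x.v + x.u + x.d) = g.lab x.w ∧
      x.nxt.v = x.v + x.u ∧ x.nxt.d = x.d) ∨
    (g.lab (x.v + x.u) = g.lab x.w ∧ g.lab (x.v + x.u + x.d) = g.lab x.w ∧
      x.nxt.v = x.v ∧ x.nxt.d = x.u) := by
  unfold nxt
  split_ifs with h h'
  · exact Or.inl ⟨h, h', rfl, rfl⟩
  · exact Or.inr (Or.inl ⟨h, x.two_ud.resolve_left h', rfl, rfl⟩)
  · exact Or.inr (Or.inr ⟨x.two_u.resolve_left h, x.nopinch h, rfl, rfl⟩)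

theorem st_nxt : x.nxt.st = x.en := by
  rcases x.nxt_cases with h | h | h <;>
    simp only [st, en, u, rq, h.2.2.1, h.2.2.2, Prod.ext_iff, Prod.fst_add, Prod.snd_add,
      Prod.fst_sub, Prod.snd_sub, Prod.fst_neg, Prod.snd_neg] <;>
    rcases x.un with e | e | e | e <;> simp only [e] <;> omega

theorem en_inj {x y : Dt g} (h : x.en = y.en) : x = y := by
  have key : (y.v = x.v ∧ y.w = x.w) ∨ (y.v = x.v + x.u + x.d ∧ y.w = x.v + x.u) ∨
      (y.v = x.v + x.u ∧ y.w = x.v) ∨ (y.v = x.w ∧ y.w = x.v + x.u + x.d) := by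
    simp only [en, w, u, rq, Prod.ext_iff, Prod.fst_add, Prod.snd_add] at h ⊢
    rcases x.un with e | e | e | e <;> rcases y.un with e' | e' | e' | e' <;>
      simp only [e, e'] at h ⊢ <;> omega
  have h1 := y.dir_w
  have h2 := g.asym _ _ x.dir_w
  have h3 := dir_irrefl g (g.lab x.v)
  have h4 := dir_irrefl g (g.lab x.w)
  rcases key with ⟨a, b⟩ | ⟨a, b⟩ | ⟨a, b⟩ | ⟨a, b⟩
  · exact (ext' a b).symm
  all_goals
    rw [a, b] at h1
    rcases x.nxt_cases with c | c | c <;> simp only [c.1, c.2.1] at h1 <;> contradiction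

theorem nxt_injective : Function.Injective (nxt (g := g)) := fun x y h =>
  en_inj (by rw [← st_nxt, h, st_nxt])

theorem nxt_surjective : Function.Surjective (nxt (g := g)) :=
  Finite.injective_iff_surjective.1 nxt_injective

theorem st_inj {x y : Dt g} (h : x.st = y.st) : x = y := by
  obtain ⟨x, rfl⟩ := nxt_surjective x
  obtain ⟨y, rfl⟩ := nxt_surjective y
  rw [st_nxt, st_nxt] at h
  rw [en_inj h]

theorem exists_of_ie {r r' : Gp} (h : g.IE r r') : ∃ x : Dt g, x.st = r ∧ x.en = r' := by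
  obtain ⟨h1, h2, h3, h4⟩ := h
  have e : lf r r' + (rt r r' - lf r r') = rt r r' := by abel
  have key : Uv (rt r r' - lf r r') ∧
      r' = ((lf r r').1 + (1 + (rt r r' - lf r r').1 - (rt r r' - lf r r').2) / 2,
        (lf r r').2 + (1 + (rt r r' - lf r r').1 + (rt r r' - lf r r').2) / 2) ∧
      r = r' - rq (rt r r' - lf r r') := by
    have h := lf_cases h1
    simp only [Uv, rq, Prod.ext_iff, Prod.fst_sub, Prod.snd_sub]
    omega
  refine ⟨⟨lf r r', rt r r' - lf r r', key.1, h2, by rwa [e], by rwa [e]⟩, ?_, key.2.1.symm⟩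
  exact (congrArg₂ (· - ·) key.2.1.symm rfl).trans key.2.2.symm

theorem odd_or : Odd (x.st.1 + x.st.2) ∨ Odd (x.nxt.st.1 + x.nxt.st.2) := by
  have h := x.st_adj
  rw [gadj_iff] at h
  rw [st_nxt, Int.odd_iff, Int.odd_iff]
  omega

end Dt

end Vale.Agent.P215Z.Gr
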