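import Vale.Agent.P215Z.Grid.Defs

/-! P215, grid: potentials on a rectangle -/

noncomputable section

namespace Vale.Agent.P215Z.Gr

theorem gadj_iff {r s : Gp} : GAdj r s ↔ (s.1 = r.1 + 1 ∧ s.2 = r.2) ∨ (s.1 = r.1 - 1 ∧ s.2 = r.2) ∨
    (s.1 = r.1 ∧ s.2 = r.2 + 1) ∨ (s.1 = r.1 ∧ s.2 = r.2 - 1) := by
  simp only [GAdj, Prod.ext_iff, Prod.fst_add, Prod.snd_add, Prod.fst_sub, Prod.snd_sub]
  omega

theorem gadj_symm {r s : Gp} (h : GAdj r s) : GAdj s r := by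
  rw [gadj_iff] at *
  omega

theorem potential_aux {G : Type} [Group G] (m n : ℕ) (U : Gp → Gp → G)
    (hU : ∀ r r', U r' r = (U r r')⁻¹)
    (h : ∀ f : Gp, 0 ≤ f.1 → f.1 < m → 0 ≤ f.2 → f.2 < n → holL U (bdF f) = 1) :
    ∃ μ : Gp → G, ∀ r r' : Gp, 0 ≤ r.1 → r.1 ≤ m → 0 ≤ r.2 → r.2 ≤ n → 0 ≤ r'.1 → r'.1 ≤ m →
      0 ≤ r'.2 → r'.2 ≤ n → GAdj r r' → U r r' = (μ r)⁻¹ * μ r' := by
  let col : ℕ → G := fun y => holN U (fun j => ((0 : ℤ), (j : ℤ))) y
  let row : ℤ → ℕ → G := fun y x => holN U (fun i => ((i : ℤ), y)) x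
  let μ : Gp → G := fun r => col r.2.toNat * row r.2 r.1.toNat
  have rt : ∀ (x : ℕ) (y : ℤ), μ (x + 1, y) = μ (x, y) * U (x, y) (x + 1, y) := by
    intro x y
    have e : ((x : ℤ) + 1).toNat = x + 1 := by omega
    simp only [μ, row, e, Int.toNat_natCast, holN, mul_assoc]
    push_cast
    rfl
  have up : ∀ (y : ℕ), y < n → ∀ x : ℕ, x ≤ m → μ (x, y + 1) = μ (x, y) * U (x, y) (x, y + 1) := by
    intro y hy x
    induction x with
    | zero =>
      intro _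
      have e : ((y : ℤ) + 1).toNat = y + 1 := by omega
      simp only [μ, row, col, e, Int.toNat_natCast, holN, mul_one]
      push_cast
      rfl
    | succ x ih =>
      intro hx
      have h1 := h (x, y) (by simp) (by simp only; omega) (by simp) (by simp only; omega)
      simp only [bdF, holL, Prod.mk_add_mk, add_zero, mul_one] at h1
      rw [hU (x, y + 1) (x + 1, y + 1), hU (x, y) (x, y + 1)] at h1
      push_cast
      rw [← mul_assoc, ← mul_inv_rev, mul_inv_eq_one] at h1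
      rw [rt, rt, ih (by omega), mul_assoc (μ _), mul_assoc (μ _), h1]
  have fw : ∀ r r' : Gp, 0 ≤ r.1 → r.1 ≤ m → 0 ≤ r.2 → r'.2 ≤ n →
      (r' = r + (1, 0) ∨ r' = r + (0, 1)) → U r r' = (μ r)⁻¹ * μ r' := by
    rintro ⟨x, y⟩ r' h1 h2 h3 h4 h5
    simp only at h1 h2 h3
    lift x to ℕ using h1
    lift y to ℕ using h3
    rcases h5 with rfl | rfl
    · simp only [Prod.mk_add_mk, add_zero]
      rw [rt, inv_mul_cancel_left]
    · simp only [Prod.mk_add_mk, add_zero] at h4 ⊢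
      rw [up y (by omega) x (by omega), inv_mul_cancel_left]
  refine ⟨μ, fun r r' a1 a2 a3 a4 b1 b2 b3 b4 hr => ?_⟩
  rcases hr with e | e | e | e
  · exact fw r r' a1 a2 a3 b4 (Or.inl e)
  · rw [hU r' r, fw r' r b1 b2 b3 a4 (Or.inl (by rw [e]; abel)), mul_inv_rev, inv_inv]
  · exact fw r r' a1 a2 a3 b4 (Or.inr e)
  · rw [hU r' r, fw r' r b1 b2 b3 a4 (Or.inr (by rw [e]; abel)), mul_inv_rev, inv_inv]

end Vale.Agent.P215Z.Gr
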