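import Vale.Agent.P215Z.Grid.Curves
import Vale.Agent.P215Z.Grid.Sheet.A

/-! G2: potentials, Stokes and generation on a sheet -/
noncomputable section
namespace Vale.Agent.P215Z
open Classical
namespace LabGrid.Curves
variable {Λ : Type} {g : LabGrid Λ} (cv : g.Curves)

open Shx

theorem shL_ne_shR (c : cv.C) : cv.shL c ≠ cv.shR c := by
  intro h
  obtain ⟨-, h1, h2, h3⟩ := cv.ie c 0 (cv.per_pos c)
  rw [← cv.lab_sh _ h1, ← cv.lab_sh _ h2, cv.sh_left c 0 (cv.per_pos c),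
    cv.sh_right c 0 (cv.per_pos c), h] at h3
  exact g.asym _ _ h3 h3

theorem pe_vx {P : cv.S} {c : cv.C} (h : cv.Touch P c) {k : ℕ} (hk : k < cv.per c) :
    cv.PE P (cv.vx c k) (cv.vx c (k + 1)) := by
  obtain ⟨h0, h1, h2, -⟩ := cv.ie c k hk
  exact ⟨h0, h.imp (fun e => ⟨h1, (cv.sh_left c k hk).trans e⟩)
    fun e => ⟨h2, (cv.sh_right c k hk).trans e⟩⟩

theorem PE.pv {P : cv.S} {r r' : Gp} (h : cv.PE P r r') : cv.PV P r ∧ cv.PV P r' := by
  obtain ⟨h0, h1 | h1⟩ := h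
  · exact ⟨⟨_, h1.1, h1.2, (corner_lf h0).1⟩, _, h1.1, h1.2, (corner_lf h0).2⟩
  · exact ⟨⟨_, h1.1, h1.2, (corner_lf (gadj_symm h0)).2⟩, _, h1.1, h1.2,
      (corner_lf (gadj_symm h0)).1⟩

theorem PE.symm {P : cv.S} {r r' : Gp} (h : cv.PE P r r') : cv.PE P r' r :=
  ⟨gadj_symm h.1, h.2.symm⟩

theorem pe_bdG {k : ℕ} (hk : k < 4 * g.m) : cv.PE cv.root (bdG g.m k) (bdG g.m (k + 1)) := by
  have hv : ∀ j : ℕ, (j ≤ g.m ∧ (bdG g.m j).1 = j ∧ (bdG g.m j).2 = 0) ∨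
      (g.m < j ∧ j ≤ 2 * g.m ∧ (bdG g.m j).1 = g.m ∧ (bdG g.m j).2 = j - g.m) ∨
      (2 * g.m < j ∧ j ≤ 3 * g.m ∧ (bdG g.m j).1 = 3 * g.m - j ∧ (bdG g.m j).2 = g.m) ∨
      (3 * g.m < j ∧ (bdG g.m j).1 = 0 ∧ (bdG g.m j).2 = 4 * g.m - j) := by
    intro j
    unfold bdG
    split_ifs with h1 h2 h3
    · exact Or.inl ⟨h1, rfl, rfl⟩
    · exact Or.inr (Or.inl ⟨not_le.1 h1, h2, rfl, rfl⟩)
    · exact Or.inr (Or.inr (Or.inl ⟨not_le.1 h2, h3, rfl, rfl⟩))
    · exact Or.inr (Or.inr (Or.inr ⟨not_le.1 h3, rfl, rfl⟩))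
  have h1 := hv k
  have h2 := hv (k + 1)
  generalize bdG g.m k = r at h1
  generalize bdG g.m (k + 1) = r' at h2
  have h3 : GAdj r r' := by
    rw [gadj_iff]
    rcases h1 with h1 | h1 | h1 | h1 <;> rcases h2 with h2 | h2 | h2 | h2 <;> omega
  have h4 := lf_val h3
  have h5 : InSq g.m (lf r r') := by
    unfold InSq
    rcases h1 with h1 | h1 | h1 | h1 <;> rcases h2 with h2 | h2 | h2 | h2 <;> omega
  refine ⟨h3, Or.inl ⟨h5, cv.sh_bd _ h5 ?_⟩⟩
  rcases h1 with h1 | h1 | h1 | h1 <;> rcases h2 with h2 | h2 | h2 | h2 <;> omega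

theorem pe_face {P : cv.S} {f : Gp} (hf : InSq g.m f) (hP : cv.sh f = P) :
    cv.PE P f (f + (1, 0)) ∧ cv.PE P (f + (1, 0)) (f + (1, 1)) ∧
      cv.PE P (f + (1, 1)) (f + (0, 1)) ∧ cv.PE P (f + (0, 1)) f := by
  obtain ⟨h1, h2, h3, h4⟩ := face_edges f
  exact ⟨⟨h1.1, Or.inl (h1.2.symm ▸ ⟨hf, hP⟩)⟩, ⟨h2.1, Or.inl (h2.2.symm ▸ ⟨hf, hP⟩)⟩,
    ⟨h3.1, Or.inl (h3.2.symm ▸ ⟨hf, hP⟩)⟩, h4.1, Or.inl (h4.2.symm ▸ ⟨hf, hP⟩)⟩

theorem chain_bdF {P : cv.S} {f : Gp} (hf : InSq g.m f) (hP : cv.sh f = P) :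
    (bdF f).IsChain (cv.PE P) := by
  obtain ⟨h1, h2, h3, h4⟩ := cv.pe_face hf hP
  simp only [bdF, List.isChain_cons_cons, List.IsChain.singleton, and_true]
  exact ⟨h1, h2, h3, h4⟩

theorem conn_face {P : cv.S} {f r r' : Gp} (hf : InSq g.m f) (hP : cv.sh f = P) (h : Corner f r)
    (h' : Corner f r') : Relation.ReflTransGen (cv.PE P) r r' := by
  obtain ⟨h1, h2, h3, h4⟩ := cv.pe_face hf hP
  have k1 : Relation.ReflTransGen (cv.PE P) r f := by
    rcases corner_cases h with rfl | rfl | rfl | rfl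
    · exact .refl
    · exact .single (PE.symm cv h1)
    · exact .head h3 (.single h4)
    · exact .single h4
  refine k1.trans ?_
  rcases corner_cases h' with rfl | rfl | rfl | rfl
  · exact .refl
  · exact .single h1
  · exact .head h1 (.single h2)
  · exact .single (PE.symm cv h4)

theorem conn {P : cv.S} {b r : Gp} (hb : cv.PV P b) (hr : cv.PV P r) :
    Relation.ReflTransGen (cv.PE P) b r := by
  obtain ⟨f, f1, f2, f3⟩ := hb
  obtain ⟨f', g1, g2, g3⟩ := hr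
  have key : ∀ x, Relation.ReflTransGen
      (fun x y => InSq g.m x ∧ InSq g.m y ∧ GAdj x y ∧ g.lab x = g.lab y) f x →
      cv.sh x = P ∧ ∀ s, Corner x s → Relation.ReflTransGen (cv.PE P) b s := by
    intro x hx
    induction hx with
    | refl => exact ⟨f2, fun s hs => cv.conn_face f1 f2 f3 hs⟩
    | tail _ h ih =>
      obtain ⟨a1, a2, a3, a4⟩ := h
      have a5 := (cv.sh_adj _ _ a1 a2 a3 a4).symm.trans ih.1
      obtain ⟨t, t1, t2⟩ := exists_corner a3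
      exact ⟨a5, fun s hs => (ih.2 t t1).trans (cv.conn_face a2 a5 t2 hs)⟩
  exact (key f' (cv.sh_conn f f' f1 g1 (f2.trans g2.symm))).2 r g3

theorem exists_walks (P : cv.S) (b : Gp) (hb : cv.PV P b) : ∃ wk, cv.Walks P b wk := by
  have h : ∀ r, ∃ l : List Gp, (r = b → l = [b]) ∧ (cv.PV P r → l.head? = some b ∧
      l.getLast? = some r ∧ l.IsChain (cv.PE P)) := by
    intro r
    by_cases h1 : r = b
    · exact ⟨[b], fun _ => rfl, fun _ => ⟨rfl, h1 ▸ rfl, .singleton _⟩⟩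
    by_cases h2 : cv.PV P r
    · obtain ⟨l, l1, l2⟩ := List.exists_isChain_cons_of_relationReflTransGen (cv.conn hb h2)
      exact ⟨b :: l, fun h => absurd h h1, fun _ =>
        ⟨rfl, l2 ▸ List.getLast?_eq_some_getLast _, l1⟩⟩
    · exact ⟨[], fun h => absurd h h1, fun h => absurd h h2⟩
  choose wk h1 h2 using h
  exact ⟨wk, h1 b rfl, fun r hr => (h2 r hr).1, fun r hr => (h2 r hr).2.1,
    fun r hr => (h2 r hr).2.2⟩

theorem edge_cases {r r' : Gp} (h : GAdj r r') (h1 : InSq g.m (lf r r'))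
    (h2 : InSq g.m (lf r' r)) : cv.sh (lf r r') = cv.sh (lf r' r) ∨ g.IE r r' ∨ g.IE r' r := by
  by_cases h3 : g.lab (lf r r') = g.lab (lf r' r)
  · exact Or.inl (cv.sh_adj _ _ h1 h2 (gadj_lf h) h3)
  · exact Or.inr ((g.total _ _ h1 h2 (gadj_lf h) h3).imp (fun e => ⟨h, h1, h2, e⟩)
      fun e => ⟨gadj_symm h, h2, h1, e⟩)

theorem exists_gauge {G : Type} [Group G] (U : Gp → Gp → G) (P : cv.S)
    (hc : ∀ c, cv.Touch P c → holN U (cv.vx c) (cv.per c) = 1) :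
    ∃ ν : Gp → G, ∀ c, cv.Touch P c → ∀ k < cv.per c,
      ν (cv.vx c k) * U (cv.vx c k) (cv.vx c (k + 1)) * (ν (cv.vx c (k + 1)))⁻¹ = 1 := by
  have h : ∀ r, ∃ x : G, ∀ c, ∀ k < cv.per c, cv.vx c k = r → x = holN U (cv.vx c) k := by
    intro r
    by_cases h : ∃ c, ∃ k < cv.per c, cv.vx c k = r
    · obtain ⟨c, k, hk, e⟩ := h
      refine ⟨holN U (cv.vx c) k, fun c' k' hk' e' => ?_⟩
      obtain ⟨rfl, rfl⟩ := cv.vx_inj c c' k k' hk hk' (e.trans e'.symm)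
      rfl
    · exact ⟨1, fun c k hk e => absurd ⟨c, k, hk, e⟩ h⟩
  choose ν hν using h
  refine ⟨ν, fun c hP k hk => ?_⟩
  have h1 : ν (cv.vx c (k + 1)) = holN U (cv.vx c) (k + 1) := by
    rcases Nat.lt_or_eq_of_le (Nat.succ_le_of_lt hk) with h | h
    · exact hν _ c _ h rfl
    · have h' : k + 1 = cv.per c := h
      rw [h', hc c hP, cv.closed]
      exact hν _ c 0 (cv.per_pos c) rfl
  rw [h1, hν _ c k hk rfl, holN, mul_inv_cancel]

theorem potential {G : Type} [Group G] (U : Gp → Gp → G) (hU : ∀ r r', U r' r = (U r r')⁻¹)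
    (P : cv.S) (hf : ∀ f, InSq g.m f → cv.sh f = P → holL U (bdF f) = 1)
    (hc : ∀ c, cv.Touch P c → holN U (cv.vx c) (cv.per c) = 1) :
    ∃ μ : Gp → G, ∀ r r', cv.PE P r r' → U r r' = (μ r)⁻¹ * μ r' := by
  obtain ⟨ν, hν⟩ := cv.exists_gauge U P hc
  obtain ⟨V, V1, V2⟩ : ∃ V : Gp → Gp → G, (∀ r r', cv.PE P r r' →
      V r r' = ν r * U r r' * (ν r')⁻¹) ∧ ∀ r r', ¬ cv.PE P r r' → V r r' = 1 :=
    ⟨fun r r' => if cv.PE P r r' then ν r * U r r' * (ν r')⁻¹ else 1, fun _ _ h => if_pos h,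
      fun _ _ h => if_neg h⟩
  have hV : ∀ r r', V r' r = (V r r')⁻¹ := fun r r' => by
    by_cases h : cv.PE P r r'
    · rw [V1 _ _ h, V1 _ _ (PE.symm cv h), hU]
      group
    · rw [V2 _ _ h, V2 _ _ fun h' => h (PE.symm cv h'), inv_one]
  have hI : ∀ r r', g.IE r r' → cv.sh (lf r r') = P ∨ cv.sh (rt r r') = P → V r r' = 1 := by
    intro r r' h h'
    obtain ⟨c, k, hk, rfl, rfl⟩ := cv.ie_surj r r' h
    rw [cv.sh_left c k hk, cv.sh_right c k hk] at h'
    rw [V1 _ _ (cv.pe_vx h' hk), hν c h' k hk]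
  have hE : ∀ r r', GAdj r r' → InSq g.m (lf r r') → cv.sh (lf r r') ≠ P → V r r' = 1 := by
    intro r r' h h1 h2
    by_cases h3 : cv.PE P r r'
    · obtain ⟨h4, h5⟩ := h3.2.resolve_left fun e => h2 e.2
      rcases cv.edge_cases h h1 h4 with e | e | e
      · exact absurd (e.trans h5) h2
      · exact hI _ _ e (Or.inr h5)
      · rw [hV, hI _ _ e (Or.inl h5), inv_one]
    · exact V2 _ _ h3
  obtain ⟨μ, hμ⟩ := grid_potential g.m g.m V hV fun f a1 a2 a3 a4 => by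
    have a5 : InSq g.m f := ⟨a1, a2, a3, a4⟩
    by_cases h : cv.sh f = P
    · rw [holL_gauge ν V1 (cv.chain_bdF a5 h) (x := f) (y := f) rfl rfl, hf f a5 h, mul_one,
        mul_inv_cancel]
    · obtain ⟨h1, h2, h3, h4⟩ := face_edges f
      simp only [bdF, holL]
      rw [hE _ _ h1.1 (h1.2.symm ▸ a5) (h1.2.symm ▸ h), hE _ _ h2.1 (h2.2.symm ▸ a5) (h2.2.symm ▸ h),
        hE _ _ h3.1 (h3.2.symm ▸ a5) (h3.2.symm ▸ h), hE _ _ h4.1 (h4.2.symm ▸ a5) (h4.2.symm ▸ h)]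
      simp
  refine ⟨fun r => μ r * ν r, fun r r' h => ?_⟩
  obtain ⟨⟨f, f1, -, f3⟩, f', g1, -, g3⟩ := PE.pv cv h
  obtain ⟨a1, a2, a3, a4⟩ := inG_corner f1 f3
  obtain ⟨b1, b2, b3, b4⟩ := inG_corner g1 g3
  have h1 := hμ r r' a1 a2 a3 a4 b1 b2 b3 b4 h.1
  rw [V1 _ _ h] at h1
  calc U r r' = (ν r)⁻¹ * (ν r * U r r' * (ν r')⁻¹) * ν r' := by group
    _ = (μ r * ν r)⁻¹ * (μ r' * ν r') := by
      rw [h1]
      group

theorem sum_ie {M : Type} [AddCommGroup M] (F : Gp × Gp → M) :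
    ∑ e ∈ (edges g.m).filter (fun e => g.IE e.1 e.2), F e =
      ∑ c, ∑ k ∈ Finset.range (cv.per c), F (cv.vx c k, cv.vx c (k + 1)) := by
  rw [Finset.sum_sigma']
  refine (Finset.sum_nbij (fun x : (_ : cv.C) × ℕ => (cv.vx x.1 x.2, cv.vx x.1 (x.2 + 1)))
    ?_ ?_ ?_ fun _ _ => rfl).symm
  · rintro ⟨c, k⟩ h
    have h1 := cv.ie c k (by simpa using h)
    exact Finset.mem_filter.2 ⟨edges_of_lf h1.1 h1.2.1, h1⟩
  · rintro ⟨c, k⟩ h ⟨c', k'⟩ h' e
    obtain ⟨rfl, rfl⟩ := cv.vx_inj c c' k k' (by simpa using h) (by simpa using h')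
      (congrArg Prod.fst e)
    rfl
  · rintro ⟨r, r'⟩ h
    obtain ⟨c, k, hk, rfl, rfl⟩ := cv.ie_surj r r' (Finset.mem_filter.1 h).2
    exact ⟨⟨c, k⟩, by simpa using hk, rfl⟩

theorem stokes {M : Type} [AddCommGroup M] (a : Gp → Gp → M) (ha : ∀ r r', a r' r = -a r r')
    (P : cv.S) (hP : P ≠ cv.root) :
    ∑ f ∈ (sqs g.m).filter (fun f => cv.sh f = P),
      (a f (f + (1, 0)) + a (f + (1, 0)) (f + (1, 1)) + a (f + (1, 1)) (f + (0, 1)) +
        a (f + (0, 1)) f) =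
    ∑ c, ((if cv.shL c = P then 1 else 0) - (if cv.shR c = P then 1 else 0) : ℤ) •
      ∑ k ∈ Finset.range (cv.per c), a (cv.vx c k) (cv.vx c (k + 1)) := by
  set T := (sqs g.m).filter fun f => cv.sh f = P with hT
  have mT : ∀ f, f ∈ T ↔ InSq g.m f ∧ cv.sh f = P := fun f => by
    rw [hT, Finset.mem_filter, mem_sqs]
  set F : Gp × Gp → M := fun e => if lf e.1 e.2 ∈ T then a e.1 e.2 else 0 with hF
  have h1 : ∑ f ∈ T, (a f (f + (1, 0)) + a (f + (1, 0)) (f + (1, 1)) +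
      a (f + (1, 1)) (f + (0, 1)) + a (f + (0, 1)) f) = ∑ e ∈ edges g.m, F e := by
    rw [← Finset.sum_filter, ← Finset.sum_fiberwise_eq_sum_filter]
    exact Finset.sum_congr rfl fun f hf => (sum_face a ((mT f).1 hf).1).symm
  have h2 : ∑ e ∈ ((edges g.m).filter fun e => ¬ g.IE e.1 e.2).filter (fun e => g.IE e.2 e.1),
      F e = ∑ e ∈ (edges g.m).filter (fun e => g.IE e.1 e.2), F e.swap := by
    refine Finset.sum_nbij' Prod.swap Prod.swap (fun e he => ?_) (fun e he => ?_)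
      (fun _ _ => rfl) (fun _ _ => rfl) fun _ _ => rfl
    · simp only [Finset.mem_filter] at he ⊢
      exact ⟨swap_edges he.1.1, he.2⟩
    · simp only [Finset.mem_filter] at he ⊢
      exact ⟨⟨swap_edges he.1, fun h => g.asym _ _ h.2.2.2 he.2.2.2.2⟩, he.2⟩
  have key : ∀ r r', GAdj r r' → ¬ g.IE r r' → ¬ g.IE r' r → lf r r' ∈ T → lf r' r ∈ T := by
    intro r r' h n1 n2 h3
    obtain ⟨h4, h5⟩ := (mT _).1 h3
    have h6 : InSq g.m (lf r' r) := by
      by_contra h7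
      refine hP (h5.symm.trans (cv.sh_bd _ h4 ?_))
      have h8 := gadj_iff.1 (gadj_lf h)
      unfold InSq at h4 h7
      omega
    exact (mT _).2 ⟨h6, (((cv.edge_cases h h4 h6).resolve_right (not_or.2 ⟨n1, n2⟩)).symm.trans h5)⟩
  have h3 : ∑ e ∈ ((edges g.m).filter fun e => ¬ g.IE e.1 e.2).filter (fun e => ¬ g.IE e.2 e.1),
      F e = 0 := by
    refine Finset.sum_involution (fun e _ => e.swap) (fun e he => ?_) (fun e he _ h => ?_)
      (fun e he => ?_) fun _ _ => rfl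
    · simp only [Finset.mem_filter] at he
      have k0 := (mem_edges.1 he.1.1).2.2
      by_cases k : lf e.1 e.2 ∈ T
      · have k' := key _ _ k0 he.1.2 he.2 k
        simp only [hF, Prod.fst_swap, Prod.snd_swap, if_pos k, if_pos k']
        rw [ha e.1 e.2, add_neg_cancel]
      · have k' : lf e.2 e.1 ∉ T := fun k' => k (key _ _ (gadj_symm k0) he.2 he.1.2 k')
        simp only [hF, Prod.fst_swap, Prod.snd_swap, if_neg k, if_neg k', add_zero]
    · simp only [Finset.mem_filter] at he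
      have k0 := gadj_iff.1 (mem_edges.1 he.1.1).2.2
      have k1 : e.2 = e.1 := congrArg Prod.fst h
      rw [k1] at k0
      omega
    · simp only [Finset.mem_filter] at he ⊢
      exact ⟨⟨swap_edges he.1.1, he.2⟩, he.1.2⟩
  rw [h1, ← Finset.sum_filter_add_sum_filter_not _ (fun e => g.IE e.1 e.2),
    ← Finset.sum_filter_add_sum_filter_not ((edges g.m).filter fun e => ¬ g.IE e.1 e.2)
      (fun e => g.IE e.2 e.1), h2, h3, add_zero, ← Finset.sum_add_distrib, cv.sum_ie]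
  refine Finset.sum_congr rfl fun c _ => ?_
  rw [Finset.smul_sum]
  refine Finset.sum_congr rfl fun k hk => ?_
  have hk' := Finset.mem_range.1 hk
  obtain ⟨-, i1, i2, -⟩ := cv.ie c k hk'
  have e1 : lf (cv.vx c k) (cv.vx c (k + 1)) ∈ T ↔ cv.shL c = P := by
    rw [mT, cv.sh_left c k hk', and_iff_right i1]
  have e2 : lf (cv.vx c (k + 1)) (cv.vx c k) ∈ T ↔ cv.shR c = P := by
    rw [mT, ← cv.sh_right c k hk']
    exact and_iff_right i2
  simp only [hF, Prod.swap_prod_mk, e1, e2]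
  rw [ha (cv.vx c k)]
  split_ifs <;> simp

theorem gen_ab {A : Type} [CommGroup A] (V : Gp → Gp → A) (hV : ∀ r r', V r' r = (V r r')⁻¹)
    (P : cv.S) (hf : ∀ f, InSq g.m f → cv.sh f = P → holL V (bdF f) = 1)
    (hc : ∀ c, cv.Touch P c → cv.par P ≠ some c → holN V (cv.vx c) (cv.per c) = 1) :
    ∃ μ : Gp → A, ∀ r r', cv.PE P r r' → V r r' = (μ r)⁻¹ * μ r' := by
  refine cv.potential V hV P hf fun c hP => ?_
  by_cases h : cv.par P = some c
  swap
  · exact hc c hP h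
  have h0 : P ≠ cv.root := fun e => by
    rw [e, cv.par_root] at h
    cases h
  have h1 := cv.stokes (fun r r' => Additive.ofMul (V r r')) (fun r r' => by rw [hV, ofMul_inv])
    P h0
  rw [Finset.sum_eq_zero, Finset.sum_eq_single c] at h1
  · rw [ofMul_holN] at h1
    have h2 := cv.shL_ne_shR c
    rcases hP with e | e
    · rw [if_pos e, if_neg fun e' => h2 (e.trans e'.symm), sub_zero, one_smul] at h1
      exact h1.symm
    · rw [if_pos e, if_neg fun e' => h2 (e'.trans e.symm), zero_sub, neg_smul, one_smul,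
        eq_comm, neg_eq_zero] at h1
      exact h1
  · intro c' _ hc'
    by_cases t : cv.Touch P c'
    · rw [ofMul_holN, hc c' t (by rw [h]; exact fun e => hc' (Option.some.inj e).symm), ofMul_one,
        smul_zero]
    · rw [if_neg fun e => t (Or.inl e), if_neg fun e => t (Or.inr e), sub_zero, zero_smul]
  · exact fun h => absurd (Finset.mem_univ c) h
  · intro f hf'
    obtain ⟨f1, f2⟩ := Finset.mem_filter.1 hf'
    have h2 := hf f (mem_sqs.1 f1) f2
    simp only [bdF, holL, mul_one, ← mul_assoc] at h2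
    rw [← ofMul_mul, ← ofMul_mul, ← ofMul_mul, h2, ofMul_one]

theorem gen {G : Type} [Group G] [Group.IsNilpotent G] (U : Gp → Gp → G)
    (hU : ∀ r r', U r' r = (U r r')⁻¹) (P : cv.S) (b : Gp) (hb : cv.PV P b) (wk : Gp → List Gp)
    (hwk : cv.Walks P b wk) (H : Subgroup G)
    (hf : ∀ f, InSq g.m f → cv.sh f = P →
      holL U (wk f) * holL U (bdF f) * (holL U (wk f))⁻¹ ∈ H)
    (hc : ∀ c, cv.Touch P c → cv.par P ≠ some c → holL U (wk (cv.vx c 0)) *
      holN U (cv.vx c) (cv.per c) * (holL U (wk (cv.vx c 0)))⁻¹ ∈ H)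
    {r r' : Gp} (h : cv.PE P r r') : holL U (wk r) * U r r' * (holL U (wk r'))⁻¹ ∈ H := by
  set S : Set G := {x | ∃ r r', cv.PE P r r' ∧ x = holL U (wk r) * U r r' * (holL U (wk r'))⁻¹}
    with hS
  obtain ⟨W, W1, W2⟩ : ∃ W : Gp → Gp → Subgroup.closure S, (∀ r r', cv.PE P r r' →
      (Subgroup.closure S).subtype (W r r') = holL U (wk r) * U r r' * (holL U (wk r'))⁻¹) ∧
      ∀ r r', ¬ cv.PE P r r' → W r r' = 1 :=
    ⟨fun r r' => if h : cv.PE P r r' then ⟨_, Subgroup.subset_closure ⟨r, r', h, rfl⟩⟩ else 1,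
      fun _ _ h => congrArg Subtype.val (dif_pos h), fun _ _ h => dif_neg h⟩
  have hW : ∀ r r', W r' r = (W r r')⁻¹ := fun r r' => by
    by_cases h : cv.PE P r r'
    · refine (Subgroup.closure S).subtype_injective ?_
      rw [map_inv, W1 _ _ h, W1 _ _ (PE.symm cv h), hU]
      group
    · rw [W2 _ _ h, W2 _ _ fun h' => h (PE.symm cv h'), inv_one]
  have h1 := nil_gen (Subgroup.closure S) (H.subgroupOf _) fun A _ φ hφ => by
    obtain ⟨μ, hμ⟩ := cv.gen_ab (fun x y => φ (W x y)) (fun x y => by rw [hW, map_inv]) P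
      (fun f f1 f2 => by
        rw [← map_holL]
        refine hφ _ ?_
        change (Subgroup.closure S).subtype _ ∈ H
        rw [map_holL, holL_gauge (fun x => holL U (wk x)) W1 (cv.chain_bdF f1 f2) (x := f) (y := f)
          rfl rfl]
        exact hf f f1 f2)
      fun c c1 c2 => by
        rw [← map_holN]
        refine hφ _ ?_
        change (Subgroup.closure S).subtype _ ∈ H
        rw [map_holN, holN_gauge (U := U) (fun x => holL U (wk x)) _ _
          fun k hk => W1 _ _ (cv.pe_vx c1 hk), cv.closed]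
        exact hc c c1 c2
    have h2 : ∀ x, cv.PV P x → μ x = μ b := fun x hx => by
      have h3 : holL W (wk x) = 1 := (Subgroup.closure S).subtype_injective (by
        rw [map_holL, holL_gauge (fun x => holL U (wk x)) W1 (hwk.chain x hx) (hwk.head x hx)
          (hwk.last x hx), hwk.base, map_one, holL, one_mul, mul_inv_cancel])
      have h4 := holL_gauge (U := fun _ _ => (1 : A)) (V := fun x y => φ (W x y))
        (fun x => (μ x)⁻¹) (fun x y hxy => by rw [hμ x y hxy, mul_one, inv_inv])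
        (hwk.chain x hx) (hwk.head x hx) (hwk.last x hx)
      rw [← map_holL, h3, map_one, holL_one, mul_one, inv_inv, eq_comm, inv_mul_eq_one] at h4
      exact h4.symm
    have h5 : φ = 1 := MonoidHom.eq_of_eqOn_dense Subgroup.closure_closure_coe_preimage (by
      rintro x ⟨y, y', hy, e⟩
      have h6 : x = W y y' := Subtype.ext (e.trans (W1 _ _ hy).symm)
      rw [h6, hμ _ _ hy, h2 _ (PE.pv cv hy).1, h2 _ (PE.pv cv hy).2, inv_mul_cancel]
      rfl)
    intro x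
    rw [h5]
    rfl
  rw [← W1 _ _ h]
  exact (h1 ▸ Subgroup.mem_top _ : W r r' ∈ H.subgroupOf _)

end LabGrid.Curves

end Vale.Agent.P215Z
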